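import Vale.Agent.P151.Renorm.StepTools

/-!
# The finite criterion at every place of the window

The events `manyHits` and `HitGood` are increasing and local; the criterion of the window of
radius `n` moves to every ball inside a larger window, for all weights at least `p` on the ball.
-/

open Finset

namespace Vale.Agent.P151.Renorm

open Glue0

variable {d N : ℕ}

/-- Configurations seen only through `A` depend only on `A`. -/
theorem shut_compl_eq {E : Type} {A : Set E} {w w' : E → Bool} (h : ∀ e, e ∈ A → w e = w' e) :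
    shut Aᶜ w = shut Aᶜ w' :=
  shut_eq_of_agree fun e he => h e (by simpa using he)

theorem good_mono {r M : ℕ} {p δ : ℝ} (hp : p ∈ Set.Icc (0 : ℝ) 1) (I : Set (Zd.Site d))
    (aim : Zd.Site d → Aim d) (c : Zd.Site d) {w w' : Ed d N → Bool} (h : w ≤ w')
    (hw : Good d N r M p δ I aim c w) : Good d N r M p δ I aim c w' := by
  refine ⟨fun e he => ?_, hw.2.trans (Pr_weights_mono (fixOut_mem (fun _ => hp) _ w)
    (fixOut_mem (fun _ => hp) _ w') (fun e => ?_) (manyHits_upper ..))⟩
  · have := h e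
    rw [hw.1 e he] at this
    exact le_antisymm le_top this
  · by_cases he : e ∈ (slab d N r I)ᶜ
    · simp [fixOut, he]
    · have := h e
      simp only [fixOut, if_neg he]
      by_cases h1 : w e = true
      · rw [h1] at this
        simp [h1, le_antisymm le_top this]
      · by_cases h2 : w' e = true <;> simp [h1, h2]

theorem hitGood_upper {r M : ℕ} {p δ : ℝ} (hp : p ∈ Set.Icc (0 : ℝ) 1) (I J : Set (Zd.Site d))
    (aim : Zd.Site d → Aim d) (A : Set (Ed d N)) (a : Vt d N) :
    IsUpperSet (HitGood d N r M p δ I J aim A a) := fun _ _ h ⟨c, hc, hg, hcl⟩ =>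
  ⟨c, hc, good_mono hp I aim _ h hg, cluster_mono (shut_mono _ h) a hcl⟩

theorem hitGood_local {r M : ℕ} {p δ : ℝ} {I J : Set (Zd.Site d)} (hJ : J ⊆ I)
    (aim : Zd.Site d → Aim d) {A : Set (Ed d N)} (hS : slab d N r I ⊆ A) (a : Vt d N) :
    LocalEv A (HitGood d N r M p δ I J aim A a) := fun w w' h => by
  simp only [HitGood, Set.mem_ofPred_eq, shut_compl_eq h]
  exact exists_congr fun c => and_congr_right fun hc =>
    and_congr_left' (good_local aim (hJ hc) fun e he => h e (hS he))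

/-- Weights pulled back along an injective map of edges. -/
theorem Ev_comp {E E' : Type} [Fintype E] [DecidableEq E] [Fintype E'] [DecidableEq E']
    (q : E' → ℝ) {φ : E → E'} (hφ : Function.Injective φ) (f : (E → Bool) → ℝ) :
    Ev q (fun w => f (w ∘ φ)) = Ev (q ∘ φ) f := by
  classical
  have key : ∀ u : E → Bool,
      (∑ w, if w ∘ φ = u then wgt q w else 0) = wgt (q ∘ φ) u := by
    intro u
    let g : E' → Bool → ℝ := fun e b =>
      if ∀ i, φ i = e → b = u i then (if b then q e else 1 - q e) else 0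
    have hin : ∀ i, (∑ b, g (φ i) b) = if u i then q (φ i) else 1 - q (φ i) := fun i => by
      cases hu : u i <;> simp [g, hφ.eq_iff, hu]
    have hout : ∀ e, e ∉ univ.image φ → (∑ b, g e b) = 1 := fun e he => by
      have : ∀ i, φ i ≠ e := fun i hi => he (mem_image.2 ⟨i, mem_univ i, hi⟩)
      simp [g, this]
    have h := Fintype.prod_sum g
    rw [← prod_subset (subset_univ (univ.image φ)) fun e _ he => hout e he,
      prod_image hφ.injOn, prod_congr rfl fun i _ => hin i] at h
    rw [wgt]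
    simp only [Function.comp_apply]
    rw [h]
    refine sum_congr rfl fun w _ => ?_
    by_cases hw : w ∘ φ = u
    · rw [if_pos hw, wgt]
      exact prod_congr rfl fun e _ => (if_pos fun i hi => by rw [← hi, ← hw]; rfl).symm
    · rw [if_neg hw]
      obtain ⟨i, hi⟩ := Function.ne_iff.1 hw
      refine (prod_eq_zero (mem_univ (φ i)) (if_neg fun hall => hi ?_)).symm
      exact hall i rfl
  simp only [Ev, ← key, sum_mul]
  rw [sum_comm]
  exact sum_congr rfl fun w _ => by simp [ite_mul]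

theorem Pr_comp {E E' : Type} [Fintype E] [DecidableEq E] [Fintype E'] [DecidableEq E']
    (q : E' → ℝ) {φ : E → E'} (hφ : Function.Injective φ) (H : Set (E → Bool)) :
    Pr q {w | w ∘ φ ∈ H} = Pr (q ∘ φ) H := by
  classical
  rw [Pr, Pr, ← Ev_comp q hφ]
  congr 1

/-- The window of radius `n` placed around `c`. -/
def shiftV {n : ℕ} (c : Zd.Site d) (hc : ∀ j, |c j| + n ≤ N) (x : Vt d n) : Vt d N :=
  ⟨c + x.1, Zd.mem_box.2 fun j => (abs_add_le (c j) (x.1 j)).trans
    (le_trans (add_le_add le_rfl (Zd.mem_box.1 x.2 j)) (hc j))⟩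

/-- The edges of that window. -/
def shiftE {n : ℕ} (c : Zd.Site d) (hc : ∀ j, |c j| + n ≤ N) (e : Ed d n) : Ed d N :=
  ⟨(shiftV c hc e.1.1, e.1.2), by
    have := (shiftV c hc ⟨_, e.2⟩).2
    simpa [shiftV, add_assoc] using this⟩

theorem shiftV_injective {n : ℕ} (c : Zd.Site d) (hc : ∀ j, |c j| + n ≤ N) :
    Function.Injective (shiftV (n := n) c hc) := fun _ _ h =>
  Subtype.ext (add_left_cancel (congrArg Subtype.val h))

theorem shiftE_injective {n : ℕ} (c : Zd.Site d) (hc : ∀ j, |c j| + n ≤ N) :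
    Function.Injective (shiftE (n := n) c hc) := fun e e' h => by
  obtain ⟨h1, h2⟩ := Prod.ext_iff.1 (congrArg Subtype.val h)
  exact Subtype.ext (Prod.ext (shiftV_injective c hc h1) h2)

theorem ends_shiftE {n : ℕ} (c : Zd.Site d) (hc : ∀ j, |c j| + n ≤ N) (e : Ed d n) :
    ends d N (shiftE c hc e) = (shiftV c hc (ends d n e).1, shiftV c hc (ends d n e).2) :=
  Prod.ext rfl (Subtype.ext (by simp [ends, shiftE, shiftV, add_assoc]))

theorem exists_shiftV {n : ℕ} {c : Zd.Site d} (hc : ∀ j, |c j| + n ≤ N) {y : Vt d N}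
    (h : ∀ j, |(y : Zd.Site d) j - c j| ≤ n) : ∃ x, shiftV c hc x = y :=
  ⟨⟨y.1 - c, Zd.mem_box.2 fun j => by simpa using h j⟩, Subtype.ext (by simp [shiftV])⟩

theorem shiftE_mem_ball {n : ℕ} (c : Zd.Site d) (hc : ∀ j, |c j| + n ≤ N) (k : Fin d × Bool)
    (e : Ed d n) :
    shiftE c hc e ∈ ballEdges d N n c k ↔ e ∈ ballEdges d n n 0 k := by
  simp only [ballEdges, inside, Set.mem_sdiff, Set.mem_ofPred_eq, ends_shiftE]
  simp [shiftV]

theorem ball_in_shift {n : ℕ} (c : Zd.Site d) (hc : ∀ j, |c j| + n ≤ N) (k : Fin d × Bool)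
    {e : Ed d N} (he : e ∈ ballEdges d N n c k) : ∃ e₀, shiftE c hc e₀ = e := by
  obtain ⟨x, hx⟩ := exists_shiftV hc he.1.1
  obtain ⟨y, hy⟩ := exists_shiftV hc he.1.2
  refine ⟨⟨(x, e.1.2), ?_⟩, Subtype.ext (Prod.ext hx rfl)⟩
  have h1 := congrArg Subtype.val hx
  have h2 := congrArg Subtype.val hy
  have h3 : (x : Zd.Site d) + Zd.unit (e.1.2, true) = y := by
    simp only [shiftV, ends] at h1 h2
    exact add_left_cancel (show c + ((x : Zd.Site d) + Zd.unit (e.1.2, true)) = c + y by
      rw [← add_assoc, h1, h2])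
  rw [h3]
  exact y.2

/-- Clusters inside a ball are translates of clusters inside the window of radius `n`. -/
theorem cluster_shift {n : ℕ} (c : Zd.Site d) (hc : ∀ j, |c j| + n ≤ N) (k : Fin d × Bool)
    (w : Ed d N → Bool) (x : Vt d n) :
    cluster (ends d N) (shut (ballEdges d N n c k)ᶜ w) (shiftV c hc x) =
      shiftV c hc '' cluster (ends d n) (shut (ballEdges d n n 0 k)ᶜ (w ∘ shiftE c hc)) x := by
  refine Set.ext fun y => ⟨fun h => ?_, ?_⟩
  · induction h with
    | refl => exact ⟨x, mem_cluster_self _ x, rfl⟩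
    | @tail b b' _ hbb ih =>
      obtain ⟨x', hx', rfl⟩ := ih
      obtain ⟨e, he, he'⟩ := hbb
      have heB : e ∈ ballEdges d N n c k := by
        by_contra hn
        simp [shut, hn] at he
      obtain ⟨e₀, rfl⟩ := ball_in_shift c hc k heB
      have hopen : shut (ballEdges d n n 0 k)ᶜ (w ∘ shiftE c hc) e₀ = true := by
        simp [shut, (shiftE_mem_ball c hc k e₀).1 heB, heB] at he ⊢
        exact he
      rw [ends_shiftE] at he'
      rcases he' with he' | he' <;> obtain ⟨h1, h2⟩ := Prod.ext_iff.1 he'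
      · refine ⟨_, Relation.ReflTransGen.tail hx' ⟨e₀, hopen, Or.inl ?_⟩, h2⟩
        exact Prod.ext (shiftV_injective c hc h1) rfl
      · refine ⟨_, Relation.ReflTransGen.tail hx' ⟨e₀, hopen, Or.inr ?_⟩, h1⟩
        exact Prod.ext rfl (shiftV_injective c hc h2)
  · rintro ⟨y₀, h, rfl⟩
    induction h with
    | refl => exact mem_cluster_self _ _
    | @tail b b' _ hbb ih =>
      obtain ⟨e₀, he, he'⟩ := hbb
      have heB : e₀ ∈ ballEdges d n n 0 k := by
        by_contra hn
        simp [shut, hn] at he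
      refine Relation.ReflTransGen.tail ih ⟨shiftE c hc e₀, ?_, ?_⟩
      · simp [shut, heB, (shiftE_mem_ball c hc k e₀).2 heB] at he ⊢
        exact he
      · rw [ends_shiftE]
        rcases he' with he' | he' <;> rw [he']
        exacts [Or.inl rfl, Or.inr rfl]

theorem shiftV_mem_piece {n : ℕ} (c : Zd.Site d) (hc : ∀ j, |c j| + n ≤ N) (k : Fin d × Bool)
    (σ : Fin d → Bool) (x : Vt d n) :
    shiftV c hc x ∈ piece d N n c k σ ↔ x ∈ piece d n n 0 k σ := by
  classical
  simp [piece, shiftV]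

theorem piece_in_ball {n : ℕ} {c : Zd.Site d} {k : Fin d × Bool} {σ : Fin d → Bool} {y : Vt d N}
    (hy : y ∈ piece d N n c k σ) (j : Fin d) : |(y : Zd.Site d) j - c j| ≤ n := by
  classical
  simp only [piece, mem_filter, mem_univ, true_and] at hy
  by_cases hj : j = k.1
  · subst hj
    rcases k with ⟨i, s⟩
    cases s <;> simp at hy ⊢ <;> rw [abs_le] <;> omega
  · have := hy.2 j hj
    cases hs : σ j <;> simp [hs] at this <;> rw [abs_le] <;> omega

theorem manyHits_shift {r n M : ℕ} (c : Zd.Site d) (hc : ∀ j, |c j| + n ≤ N) (k : Fin d × Bool)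
    (σ : Fin d → Bool) (w : Ed d N → Bool) :
    w ∈ manyHits d N r n M c k σ ↔ w ∘ shiftE c hc ∈ manyHits d n r n M 0 k σ := by
  simp only [manyHits, Set.mem_ofPred_eq]
  rw [← Set.ncard_image_of_injective {y : Vt d n | y ∈ piece d n n 0 k σ ∧ ∃ x : Vt d n,
      (∀ j, |(x : Zd.Site d) j - (0 : Zd.Site d) j| ≤ r) ∧
        y ∈ cluster (ends d n) (shut (ballEdges d n n 0 k)ᶜ (w ∘ shiftE c hc)) x}
    (shiftV_injective c hc)]
  refine iff_of_eq (congrArg (fun s : Set (Vt d N) => M ≤ s.ncard) (Set.ext fun y => ⟨?_, ?_⟩))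
  · rintro ⟨hy, x, hx, hyx⟩
    obtain ⟨y₀, rfl⟩ := exists_shiftV hc (piece_in_ball hy)
    obtain ⟨x₀, rfl⟩ : ∃ x₀, shiftV c hc x₀ = x := by
      by_cases hxy : x = shiftV c hc y₀
      · exact ⟨y₀, hxy.symm⟩
      obtain heq | ⟨z, ⟨e, he, he'⟩, -⟩ := Relation.ReflTransGen.cases_head hyx
      · exact absurd heq hxy
      have heB : e ∈ ballEdges d N n c k := by
        by_contra hn
        simp [shut, hn] at he
      rcases he' with he' | he'
      · exact exists_shiftV hc (by simpa [he'] using heB.1.1)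
      · exact exists_shiftV hc (by simpa [he'] using heB.1.2)
    rw [cluster_shift] at hyx
    obtain ⟨z, hz, hzy⟩ := hyx
    obtain rfl := shiftV_injective c hc hzy
    exact ⟨z, ⟨(shiftV_mem_piece c hc k σ z).1 hy, x₀,
      fun j => by simpa [shiftV] using hx j, hz⟩, rfl⟩
  · rintro ⟨y₀, ⟨hy, x₀, hx, hyx⟩, rfl⟩
    refine ⟨(shiftV_mem_piece c hc k σ y₀).2 hy, shiftV c hc x₀,
      fun j => by simpa [shiftV] using hx j, ?_⟩
    rw [cluster_shift]
    exact ⟨y₀, hyx, rfl⟩

theorem crit_transfer {p ε : ℝ} {r n M : ℕ} (hp : p ∈ Set.Icc (0 : ℝ) 1)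
    (h : Crit d p r n M ε) (c : Zd.Site d) (hc : ∀ j, |c j| + n ≤ N) (k : Fin d × Bool)
    (σ : Fin d → Bool) (q : Ed d N → ℝ) (hq : ∀ e, q e ∈ Set.Icc (0 : ℝ) 1)
    (hle : ∀ e ∈ ballEdges d N n c k, p ≤ q e) :
    1 - ε ≤ Pr q (manyHits d N r n M c k σ) := by
  refine (h k σ).trans (le_trans (le_of_eq ?_)
    (Pr_mono_weights (fun _ => hp) hq (manyHits_local r n M c k σ) (manyHits_upper ..) hle))
  refine (Pr_comp (fun _ : Ed d N => p) (shiftE_injective c hc) _).symm.trans (congrArg _ ?_)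
  exact Set.ext fun w => (manyHits_shift c hc k σ w).symm

end Vale.Agent.P151.Renorm
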