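import Vale.Agent.P151.Renorm.Step
import Vale.Agent.P151.Renorm.Transfer

/-!
# The first level of the renormalisation

Zones are products of intervals, measured in units of `m` from the base point of a block.
A step to the side starts from a bin of the block, turns in a plane one unit ahead, moves
sideways plane by plane and turns forward again.
-/

open Finset

namespace Vale.Agent.P151.Renorm

open Glue0

namespace Base

/-! ### Chains of hops -/

section Chain

variable {d N r M : ℕ} {p δ : ℝ}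

theorem hitGood_mono {M : ℕ} {I J J' : Set (Zd.Site d)} {aim : Zd.Site d → Aim d}
    {A A' : Set (Ed d N)} {a : Vt d N} (hJ : J ⊆ J') (hA : A ⊆ A') :
    HitGood d N r M p δ I J aim A a ⊆ HitGood d N r M p δ I J' aim A' a := by
  rintro w ⟨c, hc, hg, hcl⟩
  refine ⟨c, hJ hc, hg, cluster_mono (fun e => ?_) a hcl⟩
  by_cases h : e ∈ A
  · simp [shut, h, hA h]
  · simp [shut, h]

/-- A chain of hops, the slabs of all later zones being kept out of use. -/
theorem chain (hp : p ∈ Set.Ioo (0 : ℝ) 1) (hδ : 0 < δ) (q : Ed d N → ℝ)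
    (hq : ∀ e, q e ∈ Set.Icc (0 : ℝ) 1) (K : ℕ) (Z : ℕ → Set (Zd.Site d))
    (J : Set (Zd.Site d)) (hJ : J ⊆ Z 0) (aim : ℕ → Zd.Site d → Aim d)
    (k : ℕ → Fin d × Bool) (H A₀ : Set (Ed d N)) (a : Vt d N)
    (hA₀ : A₀ ⊆ H) (hA₀Z : ∀ j, 0 < j → j ≤ K → Disjoint A₀ (slab d N r (Z j)))
    (hsl : ∀ i ≤ K, slab d N r (Z i) ⊆ H)
    (hsd : ∀ i j, i < j → j ≤ K → Disjoint (slab d N r (Z i)) (slab d N r (Z j)))
    (hsrc : ∀ i < K, ∀ c ∈ Z i, (i = 0 → c ∈ J) →
      (aim i c).k = k i ∧ (∀ j, |c j| + (aim i c).n ≤ N) ∧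
        ballEdges d N (aim i c).n c (k i) ⊆ H ∧
        (∀ j, i < j → j ≤ K → Disjoint (ballEdges d N (aim i c).n c (k i)) (slab d N r (Z j))) ∧
        (∀ e ∈ ballEdges d N (aim i c).n c (k i), p ≤ q e) ∧
        ∀ y ∈ piece d N (aim i c).n c (k i) (aim i c).σ,
          (y : Zd.Site d) + (r : ℤ) • Zd.unit (k i) ∈ Z (i + 1))
    (hwin : ∀ i, 0 < i → i ≤ K → ∀ c ∈ Z i, (∀ j, |c j| + r ≤ N) ∧
      (∀ j, |c j| + (aim i c).n ≤ N) ∧ r < (aim i c).n ∧
        Crit d p r (aim i c).n (spread d r M) (δ ^ 2))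
    (hp' : ∀ i, 0 < i → i ≤ K → ∀ e ∈ slab d N r (Z i), q e = p) :
    Pr q (HitGood d N r (spread d r M) p δ (Z 0) J (aim 0) A₀ a \
        HitGood d N r (spread d r M) p δ (Z K) (if K = 0 then J else Z K) (aim K) H a) ≤
      K * hopErr d r M p δ := by
  classical
  set A : ℕ → Set (Ed d N) := fun i => {e | e ∈ H ∧ ∀ j, i < j → j ≤ K → e ∉ slab d N r (Z j)}
    with hA
  set src : ℕ → Set (Zd.Site d) := fun i => if i = 0 then J else Z i with hsrcdef
  set T : ℕ → Set (Ed d N → Bool) :=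
    fun i => HitGood d N r (spread d r M) p δ (Z i) (src i) (aim i) (A i) a with hT
  set S₀ := HitGood d N r (spread d r M) p δ (Z 0) J (aim 0) A₀ a with hS₀
  have h0 : S₀ ⊆ T 0 := hitGood_mono (by simp [src]) fun e he =>
    ⟨hA₀ he, fun j hj hjK => Set.disjoint_left.1 (hA₀Z j hj hjK) he⟩
  have hstep : ∀ i < K, Pr q (T i \ T (i + 1)) ≤ hopErr d r M p δ := by
    intro i hi
    have hsub : src i ⊆ Z i := by
      simp only [src]
      split_ifs with h
      · exact h ▸ hJ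
      · exact le_rfl
    have hsrc' : ∀ c ∈ src i, i = 0 → c ∈ J := fun c hc h => by simpa [src, h] using hc
    have htgt : src (i + 1) = Z (i + 1) := by simp [src]
    simp only [T, htgt]
    refine hop hp hδ q hq (Z i) (src i) (Z (i + 1)) (aim i) (aim (i + 1)) (k i) (A i)
      (A (i + 1)) a hsub ?_ ?_ ?_ ?_ ?_ ?_ ?_ (hp' (i + 1) i.succ_pos hi) ?_
    · exact fun e he => ⟨hsl i hi.le he, fun j hj hjK => Set.disjoint_left.1 (hsd i j hj hjK) he⟩
    · exact Set.disjoint_left.2 fun e he he' => he.2 (i + 1) i.lt_succ_self hi he'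
    · rintro e (he | he)
      · exact ⟨he.1, fun j hj hjK => he.2 j (by omega) hjK⟩
      · exact ⟨hsl _ hi he, fun j hj hjK => Set.disjoint_left.1 (hsd (i + 1) j hj hjK) he⟩
    · exact fun c hc => (hsrc i hi c (hsub hc) (hsrc' c hc)).1
    · intro c hc
      obtain ⟨-, hw, hH, hd, hle, -⟩ := hsrc i hi c (hsub hc) (hsrc' c hc)
      exact ⟨hw, fun e he => ⟨hH he, fun j hj hjK => Set.disjoint_left.1 (hd j hj hjK) he⟩, hle⟩
    · exact fun c hc => (hsrc i hi c (hsub hc) (hsrc' c hc)).2.2.2.2.2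
    · exact fun c hc => ⟨(hwin (i + 1) i.succ_pos hi c hc).1, (hwin (i + 1) i.succ_pos hi c hc).2.1⟩
    · exact fun c hc => (hwin (i + 1) i.succ_pos hi c hc).2.2
  have hmain : ∀ i ≤ K, Pr q (S₀ \ T i) ≤ i * hopErr d r M p δ := by
    intro i
    induction i with
    | zero =>
      intro _
      simp [Set.sdiff_eq_empty.2 h0, Pr, Ev]
    | succ i ih =>
      intro hi
      refine (Pr_mono hq (B := (S₀ \ T i) ∪ (T i \ T (i + 1))) fun w hw => ?_).trans
        ((Pr_union_le hq _ _).trans ?_)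
      · by_cases h : w ∈ T i
        · exact Or.inr ⟨h, hw.2⟩
        · exact Or.inl ⟨hw.1, h⟩
      · push_cast
        linarith [ih (by omega), hstep i hi]
  refine (Pr_mono hq (B := S₀ \ T K) fun w hw => ⟨hw.1, fun h => hw.2 ?_⟩).trans (hmain K le_rfl)
  exact hitGood_mono le_rfl (fun e he => he.1) h

end Chain

/-! ### Zones, balls, pieces -/

section Geometry

variable {d : ℕ} {N r : ℕ} {m X S g : ℤ}

/-- The product of the intervals `[t₀, t₁]` in the forward coordinate, from `X`, and `[u₀, u₁]`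
in the lateral one, from `S` and with sign `g`, in units of `m`; eight units in the others. -/
def zone (m X S g t₀ t₁ u₀ u₁ : ℤ) : Set (Zd.Site (d + 2)) :=
  {x | t₀ * m ≤ x 0 - X ∧ x 0 - X ≤ t₁ * m ∧ u₀ * m ≤ g * (x 1 - S) ∧ g * (x 1 - S) ≤ u₁ * m ∧
    ∀ j, j ≠ 0 → j ≠ 1 → |x j| ≤ 8 * m}

/-- The seeds aimed one unit ahead, steering towards the line `S`. -/
def fwd (n : ℕ) (S : ℤ) (c : Zd.Site (d + 2)) : Aim (d + 2) :=
  ⟨n, (0, true), fun j => decide (c j ≤ if j = 1 then S else 0)⟩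

theorem slab_bounds {t₀ t₁ u₀ u₁ : ℤ} (hg : g = 1 ∨ g = -1) {e : Ed (d + 2) N}
    (he : e ∈ slab (d + 2) N r (zone m X S g t₀ t₁ u₀ u₁)) {x : Zd.Site (d + 2)}
    (hx : x = (ends (d + 2) N e).1 ∨ x = (ends (d + 2) N e).2) :
    t₀ * m - r ≤ x 0 - X ∧ x 0 - X ≤ t₁ * m + r ∧ u₀ * m - r ≤ g * (x 1 - S) ∧
      g * (x 1 - S) ≤ u₁ * m + r ∧ ∀ j, j ≠ 0 → j ≠ 1 → |x j| ≤ 8 * m + r := by
  simp only [slab, Set.mem_iUnion] at he
  obtain ⟨c, ⟨h1, h2, h3, h4, h5⟩, he⟩ := he
  have hb : ∀ j, |x j - c j| ≤ r := by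
    rcases hx with rfl | rfl
    · exact he.1
    · exact he.2
  have b0 := abs_le.1 (hb 0)
  have b1 := abs_le.1 (hb 1)
  refine ⟨by omega, by omega, ?_, ?_, fun j j0 j1 => ?_⟩
  · rcases hg with rfl | rfl <;> omega
  · rcases hg with rfl | rfl <;> omega
  · have := abs_le.1 (hb j)
    have := abs_le.1 (h5 j j0 j1)
    exact abs_le.2 ⟨by omega, by omega⟩

theorem ball_bounds {d : ℕ} {n : ℕ} {c : Zd.Site d} {k : Fin d × Bool} {e : Ed d N}
    (he : e ∈ ballEdges d N n c k) {x : Zd.Site d}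
    (hx : x = (ends d N e).1 ∨ x = (ends d N e).2) (j : Fin d) : |x j - c j| ≤ n := by
  rcases hx with rfl | rfl
  · exact he.1.1 j
  · exact he.1.2 j

theorem disjoint_slabs {t₀ t₁ u₀ u₁ t₀' t₁' u₀' u₁' : ℤ} (hg : g = 1 ∨ g = -1)
    (hr : 2 * (r : ℤ) < m) (h : t₁ < t₀' ∨ u₁ < u₀') :
    Disjoint (slab (d + 2) N r (zone m X S g t₀ t₁ u₀ u₁))
      (slab (d + 2) N r (zone m X S g t₀' t₁' u₀' u₁')) := by
  refine Set.disjoint_left.2 fun e he he' => ?_
  obtain ⟨a0, a1, a2, a3, -⟩ := slab_bounds hg he (Or.inl rfl)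
  obtain ⟨b0, b1, b2, b3, -⟩ := slab_bounds hg he' (Or.inl rfl)
  rcases h with h | h <;> nlinarith

theorem disjoint_ball_fwd {n : ℕ} {c : Zd.Site (d + 2)} {t₀' t₁' u₀' u₁' : ℤ}
    (hg : g = 1 ∨ g = -1) (h : c 0 - X + n + r ≤ t₀' * m) :
    Disjoint (ballEdges (d + 2) N n c (0, true))
      (slab (d + 2) N r (zone m X S g t₀' t₁' u₀' u₁')) := by
  refine Set.disjoint_left.2 fun e he he' => he.2 ⟨?_, ?_⟩
  · have := (slab_bounds hg he' (Or.inl rfl)).1
    have := abs_le.1 (ball_bounds he (Or.inl rfl) 0)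
    simp only [if_true, mul_one]
    omega
  · have := (slab_bounds hg he' (Or.inr rfl)).1
    have := abs_le.1 (ball_bounds he (Or.inr rfl) 0)
    simp only [if_true, mul_one]
    omega

theorem disjoint_ball_side {n : ℕ} {c : Zd.Site (d + 2)} {t₀' t₁' u₀' u₁' : ℤ}
    (hg : g = 1 ∨ g = -1)
    (h : g * (c 1 - S) + n + r ≤ u₀' * m ∨ c 0 - X + n + r < t₀' * m) :
    Disjoint (ballEdges (d + 2) N n c (1, decide (g = 1)))
      (slab (d + 2) N r (zone m X S g t₀' t₁' u₀' u₁')) := by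
  refine Set.disjoint_left.2 fun e he he' => he.2 ⟨?_, ?_⟩
  · have hs := slab_bounds hg he' (Or.inl rfl)
    have := abs_le.1 (ball_bounds he (Or.inl rfl) 0)
    have := abs_le.1 (ball_bounds he (Or.inl rfl) 1)
    rcases hg with rfl | rfl <;> simp <;> omega
  · have hs := slab_bounds hg he' (Or.inr rfl)
    have := abs_le.1 (ball_bounds he (Or.inr rfl) 0)
    have := abs_le.1 (ball_bounds he (Or.inr rfl) 1)
    rcases hg with rfl | rfl <;> simp <;> omega

/-- A piece starts within one radius of its seed, on the side of the chosen sign. -/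
theorem piece_coord {d : ℕ} {n : ℕ} {c : Zd.Site d} {k : Fin d × Bool} {σ : Fin d → Bool}
    {y : Vt d N} (hy : y ∈ piece d N n c k σ) {j : Fin d} (hj : j ≠ k.1) :
    ((y : Zd.Site d) + (r : ℤ) • Zd.unit k) j = (y : Zd.Site d) j ∧
      (σ j = true → c j ≤ (y : Zd.Site d) j ∧ (y : Zd.Site d) j ≤ c j + n) ∧
      (σ j = false → c j - n ≤ (y : Zd.Site d) j ∧ (y : Zd.Site d) j ≤ c j) := by
  classical
  simp only [piece, Finset.mem_filter] at hy
  have h := hy.2.2 j hj
  refine ⟨by simp [Zd.unit, hj], fun hs => ?_, fun hs => ?_⟩ <;> simp [hs] at h <;> omega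

theorem piece_main {d : ℕ} {n : ℕ} {c : Zd.Site d} {k : Fin d × Bool} {σ : Fin d → Bool}
    {y : Vt d N} (hy : y ∈ piece d N n c k σ) :
    ((y : Zd.Site d) + (r : ℤ) • Zd.unit k) k.1 =
      c k.1 + (if k.2 then (1 : ℤ) else -1) * (n + r) := by
  classical
  simp only [piece, Finset.mem_filter] at hy
  have h := hy.2.1
  obtain ⟨i, s⟩ := k
  cases s <;> simp [Zd.unit] at h ⊢ <;> omega

/-- The other coordinates stay within eight units. -/
theorem piece_others {n : ℕ} {c : Zd.Site (d + 2)} {k : Fin (d + 2) × Bool}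
    {σ : Fin (d + 2) → Bool} {y : Vt (d + 2) N} (hy : y ∈ piece (d + 2) N n c k σ)
    (hn : (n : ℤ) ≤ 8 * m) {j : Fin (d + 2)} (hj : j ≠ k.1) (hc : |c j| ≤ 8 * m)
    (hs : σ j = decide (c j ≤ 0)) :
    |((y : Zd.Site (d + 2)) + (r : ℤ) • Zd.unit k) j| ≤ 8 * m := by
  obtain ⟨he, h1, h2⟩ := piece_coord (r := r) hy hj
  have := abs_le.1 hc
  rw [he, abs_le]
  by_cases h : c j ≤ 0
  · have := h1 (by simp [hs, h]); omega
  · have := h2 (by simp [hs, h]); omega

/-- A forward piece lands on the next plane, no further from the steering line. -/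
theorem piece_fwd {n : ℕ} {c : Zd.Site (d + 2)} {L : ℤ} {t u₀ u₁ : ℤ} (hg : g = 1 ∨ g = -1)
    {y : Vt (d + 2) N} (hy : y ∈ piece (d + 2) N n c (0, true) (fwd n L c).σ)
    (hn : (n : ℤ) ≤ 8 * m) (ht : c 0 - X + n + r = t * m)
    (hu₀ : u₀ * m ≤ g * (L - S) - n ∧ u₀ * m ≤ g * (c 1 - S))
    (hu₁ : g * (L - S) + n ≤ u₁ * m ∧ g * (c 1 - S) ≤ u₁ * m)
    (hc : ∀ j, j ≠ 0 → j ≠ 1 → |c j| ≤ 8 * m) :
    (y : Zd.Site (d + 2)) + (r : ℤ) • Zd.unit ((0 : Fin (d + 2)), true) ∈
      zone m X S g t t u₀ u₁ := by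
  have h0 := piece_main (r := r) hy
  simp only [if_true, one_mul] at h0
  obtain ⟨he, h1, h2⟩ := piece_coord (r := r) hy (j := 1) (by simp)
  have hσ : (fwd n L c).σ 1 = decide (c 1 ≤ L) := by simp [fwd]
  refine ⟨by omega, by omega, ?_, ?_, fun j j0 j1 => piece_others hy hn j0 (hc j j0 j1)
    (by simp [fwd, j1])⟩ <;> rw [he] <;> by_cases h : c 1 ≤ L
  · have := h1 (by simp [hσ, h]); rcases hg with rfl | rfl <;> omega
  · have := h2 (by simp [hσ, h]); rcases hg with rfl | rfl <;> omega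
  · have := h1 (by simp [hσ, h]); rcases hg with rfl | rfl <;> omega
  · have := h2 (by simp [hσ, h]); rcases hg with rfl | rfl <;> omega

end Geometry

/-! ### Running a chain of stages -/

section Run

variable {d N r M : ℕ} {p δ : ℝ} {m X S g : ℤ}

/-- Both ends of the edge lie in the rectangle of the step. -/
def Within (r : ℕ) (m X S g U : ℤ) (e : Ed (d + 2) N) : Prop :=
  ∀ x : Zd.Site (d + 2), (x = (ends (d + 2) N e).1 ∨ x = (ends (d + 2) N e).2) →
    -(40 * m) ≤ x 0 - X ∧ x 0 - X ≤ 40 * m + r ∧ -(40 * m) ≤ g * (x 1 - S) ∧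
      g * (x 1 - S) ≤ U * m

/-- A chain of stages inside the rectangle of a step. -/
theorem run (hp : p ∈ Set.Ioo (0 : ℝ) 1) (hδ : 0 < δ) (hm : 10 * (r : ℤ) ≤ m) (hr : 1 ≤ r)
    (hg : g = 1 ∨ g = -1) (hX : |X| + 80 * m ≤ N) (hS : |S| + 80 * m ≤ N) (hm80 : 80 * m ≤ N)
    (q : Ed (d + 2) N → ℝ) (hq : ∀ e, q e ∈ Set.Icc (0 : ℝ) 1) {U : ℤ} (hU : U ≤ 80)
    (hU40 : 40 ≤ U)
    (hqw : ∀ e, Within r m X S g U e →
      p ≤ q e ∧ (e ∉ halfSpace (d + 2) N (X + r) → q e = p))
    (hcrit : ∀ n : ℕ, m ≤ (n : ℤ) + r → (n : ℤ) ≤ 9 * m →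
      Crit (d + 2) p r n (spread (d + 2) r M) (δ ^ 2))
    (K : ℕ) (hK : 0 < K) (st : ℕ → ℤ × ℤ × ℤ × ℤ) (h0 : st 0 = (0, 0, -8, 8))
    (Z : ℕ → Set (Zd.Site (d + 2)))
    (hZ : ∀ i, Z i = zone m X S g (st i).1 (st i).2.1 (st i).2.2.1 (st i).2.2.2)
    (J : Set (Zd.Site (d + 2))) (hJ : J ⊆ Z 0)
    (aim : ℕ → Zd.Site (d + 2) → Aim (d + 2)) (k : ℕ → Fin (d + 2) × Bool)
    (a : Vt (d + 2) N)
    (hst : ∀ i, 0 < i → i ≤ K → 1 ≤ (st i).1 ∧ (st i).2.1 ≤ 40 ∧ -31 ≤ (st i).2.2.1 ∧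
      (st i).2.2.2 ≤ U - 9)
    (hsep : ∀ i j, i < j → j ≤ K → (st i).2.1 < (st j).1 ∨ (st i).2.2.2 < (st j).2.2.1)
    (hsrc : ∀ i < K, ∀ c ∈ Z i, (i = 0 → c ∈ J) →
      (aim i c).k = k i ∧ ((aim i c).n : ℤ) ≤ 9 * m ∧
        (-(40 * m) ≤ c 0 - X - (aim i c).n ∧ c 0 - X + (aim i c).n ≤ 40 * m + r ∧
          -(40 * m) ≤ g * (c 1 - S) - (aim i c).n ∧ g * (c 1 - S) + (aim i c).n ≤ U * m) ∧
        (∀ j, i < j → j ≤ K →
          Disjoint (ballEdges (d + 2) N (aim i c).n c (k i)) (slab (d + 2) N r (Z j))) ∧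
        ∀ y ∈ piece (d + 2) N (aim i c).n c (k i) (aim i c).σ,
          (y : Zd.Site (d + 2)) + (r : ℤ) • Zd.unit (k i) ∈ Z (i + 1))
    (hn : ∀ i, 0 < i → i ≤ K → ∀ c ∈ Z i,
      m ≤ ((aim i c).n : ℤ) + r ∧ ((aim i c).n : ℤ) ≤ 9 * m) :
    Pr q (HitGood (d + 2) N r (spread (d + 2) r M) p δ (Z 0) J (aim 0)
          (halfSpace (d + 2) N (X + r)) a \
        HitGood (d + 2) N r (spread (d + 2) r M) p δ (Z K) (Z K) (aim K)
          (halfSpace (d + 2) N (X + 40 * m + r)) a) ≤ K * hopErr (d + 2) r M p δ := by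
  have hslab : ∀ i ≤ K, ∀ e ∈ slab (d + 2) N r (Z i), Within r m X S g U e ∧
      (0 < i → e ∉ halfSpace (d + 2) N (X + r)) := by
    intro i hi e he
    rw [hZ] at he
    rcases Nat.eq_zero_or_pos i with rfl | hi0
    · rw [h0] at he
      refine ⟨fun x hx => ?_, fun h => absurd h (lt_irrefl 0)⟩
      obtain ⟨b0, b1, b2, b3, -⟩ := slab_bounds hg he hx
      simp only at b0 b1 b2 b3
      have := mul_le_mul_of_nonneg_right hU40 (by omega : (0 : ℤ) ≤ m)
      exact ⟨by omega, by omega, by omega, by omega⟩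
    · obtain ⟨s1, s2, s3, s4⟩ := hst i hi0 hi
      refine ⟨fun x hx => ?_, fun _ h => ?_⟩
      · obtain ⟨b0, b1, b2, b3, -⟩ := slab_bounds hg he hx
        exact ⟨by nlinarith, by nlinarith, by nlinarith, by nlinarith⟩
      · have := (slab_bounds hg he (Or.inl rfl)).1
        have := h.1
        nlinarith
  refine le_trans ?_ (le_of_le_of_eq (chain (d := d + 2) hp hδ q hq K Z J hJ aim k
    (halfSpace (d + 2) N (X + 40 * m + r)) (halfSpace (d + 2) N (X + r)) a ?_ ?_ ?_ ?_ ?_ ?_ ?_)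
    rfl)
  · rw [if_neg (by omega : K ≠ 0)]
  · exact fun e he => ⟨by have := he.1; omega, by have := he.2; omega⟩
  · exact fun j hj hjK => Set.disjoint_left.2 fun e he he' => (hslab j hjK e he').2 hj he
  · intro i hi e he
    have hw := (hslab i hi e he).1
    exact ⟨by have := (hw _ (Or.inl rfl)).2.1; omega, by have := (hw _ (Or.inr rfl)).2.1; omega⟩
  · intro i j hij hjK
    rw [hZ, hZ]
    exact disjoint_slabs hg (by omega) (hsep i j hij hjK)
  · intro i hi c hc hcJ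
    obtain ⟨hk, hn9, ⟨w0, w1, w2, w3⟩, hd, ht⟩ := hsrc i hi c hc hcJ
    have hball : ∀ e ∈ ballEdges (d + 2) N (aim i c).n c (k i), Within r m X S g U e := by
      intro e he x hx
      have h0 := abs_le.1 (ball_bounds he hx 0)
      have h1 := abs_le.1 (ball_bounds he hx 1)
      rcases hg with rfl | rfl <;> exact ⟨by omega, by omega, by omega, by omega⟩
    refine ⟨hk, fun j => ?_, fun e he => ?_, hd, fun e he => (hqw e (hball e he)).1, ht⟩
    · rw [hZ] at hc
      by_cases j0 : j = 0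
      · subst j0
        have := abs_le.1 (le_refl |X|)
        rcases abs_cases (c 0) with ⟨h, -⟩ | ⟨h, -⟩ <;> omega
      by_cases j1 : j = 1
      · subst j1
        have := abs_le.1 (le_refl |S|)
        have := mul_le_mul_of_nonneg_right hU (by omega : (0 : ℤ) ≤ m)
        rcases abs_cases (c 1) with ⟨h, -⟩ | ⟨h, -⟩ <;> rcases hg with rfl | rfl <;> omega
      have := hc.2.2.2.2 j j0 j1
      omega
    · have hw := hball e he
      exact ⟨by have := (hw _ (Or.inl rfl)).2.1; omega, by have := (hw _ (Or.inr rfl)).2.1; omega⟩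
  · intro i hi hiK c hc
    obtain ⟨hn1, hn2⟩ := hn i hi hiK c hc
    obtain ⟨s1, s2, s3, s4⟩ := hst i hi hiK
    rw [hZ] at hc
    obtain ⟨c0, c0', c1, c1', c2⟩ := hc
    have key : ∀ (j : Fin (d + 2)) (z : ℤ), 0 ≤ z → z ≤ 9 * m → |c j| + z ≤ N := by
      intro j z hz0 hz
      by_cases j0 : j = 0
      · subst j0
        have := abs_le.1 (le_refl |X|)
        have : c 0 - X ≤ 40 * m := by nlinarith
        have : (0 : ℤ) ≤ c 0 - X := by nlinarith
        rcases abs_cases (c 0) with ⟨h, -⟩ | ⟨h, -⟩ <;> omega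
      by_cases j1 : j = 1
      · subst j1
        have := abs_le.1 (le_refl |S|)
        have : g * (c 1 - S) ≤ 71 * m := by
          by_contra hh
          nlinarith [hm80]
        have : -(31 * m) ≤ g * (c 1 - S) := by nlinarith
        rcases abs_cases (c 1) with ⟨h, -⟩ | ⟨h, -⟩ <;> rcases hg with rfl | rfl <;> omega
      have := c2 j j0 j1
      omega
    exact ⟨fun j => key j r (by omega) (by omega), fun j => key j _ (by omega) hn2,
      by omega, hcrit _ hn1 hn2⟩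
  · exact fun i hi hiK e he => (hqw e (hslab i hiK e he).1).2 ((hslab i hiK e he).2 hi)

end Run

/-! ### The stages of a step -/

section Stages

variable {d : ℕ} {r : ℕ}

/-- The zones of a straight step. -/
def straightZ (m X S : ℤ) (i : ℕ) : Set (Zd.Site (d + 2)) := zone m X S 1 i i (-8) 8

/-- The intervals of the stages of a step to the side, started from bin `b`. -/
def stage (b i : ℕ) : ℤ × ℤ × ℤ × ℤ :=
  if i = 0 then (0, 0, -8, 8)
  else if i = 1 then (1, 1, (b : ℤ) - 9, b - 6)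
  else if i ≤ 45 - b then (1, 7, (b : ℤ) - 5 + i, b - 5 + i)
  else ((i : ℤ) + b - 37, i + b - 37, 32, 48)

/-- The zones of a step to the side. -/
def sideZ (m X S g : ℤ) (b i : ℕ) : Set (Zd.Site (d + 2)) :=
  zone m X S g (stage b i).1 (stage b i).2.1 (stage b i).2.2.1 (stage b i).2.2.2

/-- The aims of a step to the side. -/
def sideAim (r : ℕ) (m X S g : ℤ) (b i : ℕ) (c : Zd.Site (d + 2)) : Aim (d + 2) :=
  if i = 0 then fwd ((m - r).toNat) S c
  else if i = 1 then
    ⟨(((b : ℤ) - 3) * m - g * (c 1 - S) - r).toNat, (1, decide (g = 1)),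
      fun j => decide (j = 0 ∨ c j ≤ 0)⟩
  else if i < 45 - b then
    ⟨(m - r).toNat, (1, decide (g = 1)), fun j => decide (c j ≤ if j = 0 then X + 4 * m else 0)⟩
  else if i = 45 - b then fwd ((9 * m - (c 0 - X) - r).toNat) (S + g * (40 * m)) c
  else fwd ((m - r).toNat) (S + g * (40 * m)) c

/-- The signed direction of each stage of a step to the side. -/
def sideDir (g : ℤ) (b i : ℕ) : Fin (d + 2) × Bool :=
  if i = 0 then (0, true) else if i < 45 - b then (1, decide (g = 1)) else (0, true)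

theorem sideAim_dir (m X S g : ℤ) {b : ℕ} (hb : b < 16) (i : ℕ) (c : Zd.Site (d + 2)) :
    (sideAim r m X S g b i c).k = sideDir g b i := by
  unfold sideAim sideDir
  split_ifs <;> first | rfl | omega

end Stages


/-! ### One step of the first level -/

section Step

variable {d N r M : ℕ} {p δ : ℝ} {m X S g : ℤ}

theorem straight_step (hp : p ∈ Set.Ioo (0 : ℝ) 1) (hδ : 0 < δ) (hm : 10 * (r : ℤ) ≤ m)
    (hr : 1 ≤ r) (hX : |X| + 80 * m ≤ N) (hS : |S| + 80 * m ≤ N) (hm80 : 80 * m ≤ N)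
    (q : Ed (d + 2) N → ℝ) (hq : ∀ e, q e ∈ Set.Icc (0 : ℝ) 1)
    (hqw : ∀ e, Within r m X S 1 40 e →
      p ≤ q e ∧ (e ∉ halfSpace (d + 2) N (X + r) → q e = p))
    (hcrit : ∀ n : ℕ, m ≤ (n : ℤ) + r → (n : ℤ) ≤ 9 * m →
      Crit (d + 2) p r n (spread (d + 2) r M) (δ ^ 2)) (a : Vt (d + 2) N) :
    Pr q (HitGood (d + 2) N r (spread (d + 2) r M) p δ (straightZ m X S 0) (straightZ m X S 0)
          (fwd (m - r).toNat S) (halfSpace (d + 2) N (X + r)) a \
        HitGood (d + 2) N r (spread (d + 2) r M) p δ (straightZ m X S 40) (straightZ m X S 40)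
          (fwd (m - r).toNat S) (halfSpace (d + 2) N (X + 40 * m + r)) a) ≤
      40 * hopErr (d + 2) r M p δ := by
  have hn : (((m - r).toNat : ℕ) : ℤ) = m - r := Int.toNat_of_nonneg (by omega)
  have := run hp hδ hm hr (Or.inl rfl) hX hS hm80 q hq (U := 40) (by norm_num) le_rfl hqw hcrit
    40 (by norm_num) (fun i => ((i : ℤ), (i : ℤ), -8, 8)) (by norm_num) (straightZ m X S)
    (fun i => rfl) (straightZ m X S 0) le_rfl (fun _ => fwd (m - r).toNat S)
    (fun _ => (0, true)) a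
    (fun i hi hiK => ⟨by simp; omega, by simp; omega, by norm_num, by norm_num⟩)
    (fun i j hij hjK => Or.inl (by simp; omega))
    (fun i hi c hc _ => ?_)
    (fun i hi hiK c hc => ⟨by simp only [fwd]; omega, by simp only [fwd]; omega⟩)
  · simpa using this
  · obtain ⟨c0, c0', c1, c1', c2⟩ := hc
    simp only [fwd] at *
    rw [hn]
    have hi' : (i : ℤ) * m ≤ 39 * m :=
      mul_le_mul_of_nonneg_right (by omega) (by omega)
    have hi0 : (0 : ℤ) ≤ (i : ℤ) * m := mul_nonneg (by omega) (by omega)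
    refine ⟨by trivial, by omega, ⟨by omega, by omega, by omega, by omega⟩, fun j hij hjK => ?_, ?_⟩
    · refine disjoint_ball_fwd (Or.inl rfl) ?_
      rw [hn]
      have : ((i : ℤ) + 1) * m ≤ (j : ℤ) * m :=
        mul_le_mul_of_nonneg_right (by omega) (by omega)
      linarith
    · intro y hy
      exact piece_fwd (Or.inl rfl) hy (by omega) (by rw [hn]; push_cast; linarith)
        ⟨by rw [hn]; omega, c1⟩ ⟨by rw [hn]; omega, c1'⟩ c2

/-- The sources of bin `b` of a block. -/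
def bin (m X S g : ℤ) (b : ℕ) : Set (Zd.Site (d + 2)) :=
  {c | c ∈ zone m X S g 0 0 (-8) 8 ∧ ((b : ℤ) - 8) * m ≤ g * (c 1 - S) ∧
    g * (c 1 - S) ≤ ((b : ℤ) - 7) * m}

theorem sideZ_one (m X S g : ℤ) (b : ℕ) :
    sideZ (d := d) m X S g b 1 = zone m X S g 1 1 ((b : ℤ) - 9) ((b : ℤ) - 6) := by
  simp [sideZ, stage]

theorem sideZ_side (m X S g : ℤ) {b i : ℕ} (h : 2 ≤ i) (h' : i ≤ 45 - b) :
    sideZ (d := d) m X S g b i = zone m X S g 1 7 ((b : ℤ) - 5 + i) ((b : ℤ) - 5 + i) := by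
  simp [sideZ, stage, h', show i ≠ 0 by omega, show i ≠ 1 by omega]

theorem sideZ_fwd (m X S g : ℤ) {b i : ℕ} (hb : b < 16) (h : 45 - b < i) :
    sideZ (d := d) m X S g b i = zone m X S g ((i : ℤ) + b - 37) ((i : ℤ) + b - 37) 32 48 := by
  simp [sideZ, stage, show ¬i ≤ 45 - b by omega, show i ≠ 0 by omega, show i ≠ 1 by omega]

/-- The later zones of a step to the side. -/
theorem later (m X S g : ℤ) {b i j : ℕ} (hb : b < 16) (hij : i < j) :
    (i = 0 ∧ sideZ (d := d) m X S g b j = zone m X S g 1 1 ((b : ℤ) - 9) ((b : ℤ) - 6)) ∨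
      (2 ≤ j ∧ j ≤ 45 - b ∧
        sideZ (d := d) m X S g b j = zone m X S g 1 7 ((b : ℤ) - 5 + j) ((b : ℤ) - 5 + j)) ∨
      (45 - b < j ∧
        sideZ (d := d) m X S g b j =
          zone m X S g ((j : ℤ) + b - 37) ((j : ℤ) + b - 37) 32 48) := by
  by_cases h1 : j = 1
  · exact Or.inl ⟨by omega, h1 ▸ sideZ_one m X S g b⟩
  by_cases h2 : j ≤ 45 - b
  · exact Or.inr (Or.inl ⟨by omega, h2, sideZ_side m X S g (by omega) h2⟩)
  · exact Or.inr (Or.inr ⟨by omega, sideZ_fwd m X S g hb (by omega)⟩)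

/-- What `run` asks of a source at stage `i` of a step to the side. -/
def Moves (N r : ℕ) (m X S g : ℤ) (b i : ℕ) (A : Aim (d + 2)) (c : Zd.Site (d + 2)) : Prop :=
  (A.n : ℤ) ≤ 9 * m ∧
    (-(40 * m) ≤ c 0 - X - A.n ∧ c 0 - X + A.n ≤ 40 * m + r ∧
      -(40 * m) ≤ g * (c 1 - S) - A.n ∧ g * (c 1 - S) + A.n ≤ 80 * m) ∧
    (∀ j, i < j → j ≤ 77 - b → Disjoint (ballEdges (d + 2) N A.n c A.k)
      (slab (d + 2) N r (sideZ m X S g b j))) ∧
    ∀ y ∈ piece (d + 2) N A.n c A.k A.σ,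
      (y : Zd.Site (d + 2)) + (r : ℤ) • Zd.unit A.k ∈ sideZ m X S g b (i + 1)

variable (hm : 10 * (r : ℤ) ≤ m) (hr : 1 ≤ r) (hg : g = 1 ∨ g = -1)
include hm hr hg

theorem moves_start {b : ℕ} (hb : b < 16) {c : Zd.Site (d + 2)} (hc : c ∈ bin m X S g b) :
    Moves N r m X S g b 0 (fwd (m - r).toNat S c) c := by
  obtain ⟨⟨c0, c0', c1, c1', c2⟩, j1, j2⟩ := hc
  have hn : (((m - r).toNat : ℕ) : ℤ) = m - r := Int.toNat_of_nonneg (by omega)
  refine ⟨by simp only [fwd]; omega, by simp only [fwd]; omega, fun j hij _ => ?_, fun y hy => ?_⟩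
  · show Disjoint (ballEdges (d + 2) N (m - r).toNat c (0, true)) _
    rcases later (d := d) m X S g hb hij with ⟨-, e⟩ | ⟨-, -, e⟩ | ⟨h, e⟩ <;> rw [e] <;>
      refine disjoint_ball_fwd hg ?_ <;> rw [hn]
    · omega
    · omega
    · have : (9 : ℤ) * m ≤ ((j : ℤ) + b - 37) * m :=
        mul_le_mul_of_nonneg_right (by omega) (by omega)
      omega
  · have h0 := piece_main (r := r) hy
    obtain ⟨he, -, -⟩ := piece_coord (r := r) hy (j := 1) (by simp [fwd])
    have h1 := abs_le.1 (piece_in_ball hy 1)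
    simp only [fwd, if_true, one_mul, hn] at h0 h1 he hy ⊢
    rw [sideZ_one]
    refine ⟨by omega, by omega, ?_, ?_, fun j j0 j1 =>
      piece_others hy (by omega) j0 (c2 j j0 j1) (by simp [j1])⟩ <;> rw [he] <;>
      rcases hg with rfl | rfl <;> linarith

theorem moves_turn {b : ℕ} (hb : b < 16) {c : Zd.Site (d + 2)}
    (hc : c ∈ sideZ m X S g b 1) : Moves N r m X S g b 1 (sideAim r m X S g b 1 c) c := by
  rw [sideZ_one] at hc
  obtain ⟨c0, c0', c1, c1', c2⟩ := hc
  obtain ⟨n, hn, hA⟩ : ∃ n : ℕ, (n : ℤ) = ((b : ℤ) - 3) * m - g * (c 1 - S) - r ∧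
      sideAim r m X S g b 1 c = ⟨n, (1, decide (g = 1)), fun j => decide (j = 0 ∨ c j ≤ 0)⟩ :=
    ⟨_, Int.toNat_of_nonneg (by linarith), by simp [sideAim]⟩
  have n1 : (n : ℤ) ≤ 6 * m - r := by linarith
  have hb15 : (b : ℤ) * m ≤ 15 * m := mul_le_mul_of_nonneg_right (by omega) (by omega)
  have hb0 : (0 : ℤ) ≤ (b : ℤ) * m := mul_nonneg (by omega) (by omega)
  have n2 : g * (c 1 - S) + n = ((b : ℤ) - 3) * m - r := by linarith
  have hb3 : ((b : ℤ) - 3) * m = (b : ℤ) * m - 3 * m := by ring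
  have hb9 : ((b : ℤ) - 9) * m = (b : ℤ) * m - 9 * m := by ring
  rw [hA]
  refine ⟨by simp only; omega, by simp only; omega, fun j hij _ => ?_, fun y hy => ?_⟩ <;>
    simp only
  · rcases later (d := d) m X S g hb hij with ⟨h, -⟩ | ⟨h, -, e⟩ | ⟨h, e⟩
    · omega
    · rw [e]
      refine disjoint_ball_side hg (Or.inl ?_)
      have : ((b : ℤ) - 3) * m ≤ ((b : ℤ) - 5 + j) * m :=
        mul_le_mul_of_nonneg_right (by omega) (by omega)
      omega
    · rw [e]
      refine disjoint_ball_side hg (Or.inr ?_)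
      have : (9 : ℤ) * m ≤ ((j : ℤ) + b - 37) * m :=
        mul_le_mul_of_nonneg_right (by omega) (by omega)
      omega
  · simp only at hy
    have h0 := piece_main (r := r) hy
    obtain ⟨he, p1, -⟩ := piece_coord (r := r) hy (j := 0) (by simp)
    have := p1 (by simp)
    rw [sideZ_side m X S g (by omega) (by omega)]
    have hu : g * (((y : Zd.Site (d + 2)) + (r : ℤ) • Zd.unit ((1 : Fin (d + 2)), decide (g = 1)) :
        Zd.Site (d + 2)) 1 - S) =
        g * (c 1 - S) + n + r := by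
      rcases hg with rfl | rfl <;> simp at h0 ⊢ <;> linarith
    refine ⟨by rw [he]; omega, by rw [he]; omega, ?_, ?_, fun j j0 j1 =>
      piece_others hy (by omega) j1 (c2 j j0 j1) (by simp [j0])⟩ <;>
      rw [hu] <;> push_cast <;> linarith

theorem moves_side {b i : ℕ} (hb : b < 16) (h : 2 ≤ i) (h' : i < 45 - b)
    {c : Zd.Site (d + 2)} (hc : c ∈ sideZ m X S g b i) :
    Moves N r m X S g b i (sideAim r m X S g b i c) c := by
  rw [sideZ_side m X S g h h'.le] at hc
  obtain ⟨c0, c0', c1, c1', c2⟩ := hc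
  obtain ⟨n, hn, hA⟩ : ∃ n : ℕ, (n : ℤ) = m - r ∧ sideAim r m X S g b i c =
      ⟨n, (1, decide (g = 1)), fun j => decide (c j ≤ if j = 0 then X + 4 * m else 0)⟩ :=
    ⟨_, Int.toNat_of_nonneg (by omega),
      by simp [sideAim, h', show i ≠ 0 by omega, show i ≠ 1 by omega]⟩
  have hlo : (-3 : ℤ) * m ≤ ((b : ℤ) - 5 + i) * m :=
    mul_le_mul_of_nonneg_right (by omega) (by omega)
  have hhi : ((b : ℤ) - 5 + i) * m ≤ 39 * m :=
    mul_le_mul_of_nonneg_right (by omega) (by omega)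
  rw [hA]
  refine ⟨by simp only; omega, by simp only; omega, fun j hij _ => ?_, fun y hy => ?_⟩ <;>
    simp only
  · rcases later (d := d) m X S g hb hij with ⟨h, -⟩ | ⟨h, -, e⟩ | ⟨h, e⟩
    · omega
    · rw [e]
      refine disjoint_ball_side hg (Or.inl ?_)
      have : ((b : ℤ) - 5 + i + 1) * m ≤ ((b : ℤ) - 5 + j) * m :=
        mul_le_mul_of_nonneg_right (by omega) (by omega)
      linarith
    · rw [e]
      refine disjoint_ball_side hg (Or.inr ?_)
      have : (9 : ℤ) * m ≤ ((j : ℤ) + b - 37) * m :=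
        mul_le_mul_of_nonneg_right (by omega) (by omega)
      omega
  · simp only at hy
    have h0 := piece_main (r := r) hy
    obtain ⟨he, p1, p2⟩ := piece_coord (r := r) hy (j := 0) (by simp)
    rw [sideZ_side m X S g (by omega) (by omega)]
    have hu : g * (((y : Zd.Site (d + 2)) + (r : ℤ) • Zd.unit ((1 : Fin (d + 2)), decide (g = 1)) :
        Zd.Site (d + 2)) 1 - S) =
        g * (c 1 - S) + n + r := by
      rcases hg with rfl | rfl <;> simp at h0 ⊢ <;> linarith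
    refine ⟨?_, ?_, by rw [hu]; push_cast; linarith, by rw [hu]; push_cast; linarith,
      fun j j0 j1 => piece_others hy (by omega) j1 (c2 j j0 j1) (by simp [j0])⟩ <;> rw [he] <;>
      by_cases h4 : c 0 ≤ X + 4 * m
    · have := p1 (by simpa using h4); omega
    · have := p2 (by simpa using h4); omega
    · have := p1 (by simpa using h4); omega
    · have := p2 (by simpa using h4); omega

theorem moves_back {b i : ℕ} (hb : b < 16) (h : i = 45 - b) {c : Zd.Site (d + 2)}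
    (hc : c ∈ sideZ m X S g b i) : Moves N r m X S g b i (sideAim r m X S g b i c) c := by
  rw [sideZ_side m X S g (by omega) h.le] at hc
  obtain ⟨c0, c0', c1, c1', c2⟩ := hc
  obtain ⟨n, hn, hA⟩ : ∃ n : ℕ, (n : ℤ) = 9 * m - (c 0 - X) - r ∧
      sideAim r m X S g b i c = fwd n (S + g * (40 * m)) c :=
    ⟨_, Int.toNat_of_nonneg (by omega),
      by simp [sideAim, h, show 45 - b ≠ 0 by omega, show 45 - b ≠ 1 by omega]⟩
  have hgS : g * (S + g * (40 * m) - S) = 40 * m := by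
    rcases hg with rfl | rfl <;> ring
  have hu : (b : ℤ) - 5 + i = 40 := by omega
  rw [hu] at c1 c1'
  rw [hA]
  refine ⟨by simp only [fwd]; omega, by simp only [fwd]; omega, fun j hij _ => ?_, fun y hy => ?_⟩
  · show Disjoint (ballEdges (d + 2) N n c (0, true)) _
    rcases later (d := d) m X S g hb hij with ⟨h', -⟩ | ⟨-, h', -⟩ | ⟨h', e⟩
    · omega
    · omega
    · rw [e]
      refine disjoint_ball_fwd hg ?_
      have : (9 : ℤ) * m ≤ ((j : ℤ) + b - 37) * m :=
        mul_le_mul_of_nonneg_right (by omega) (by omega)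
      omega
  · simp only [fwd] at hy ⊢
    rw [sideZ_fwd m X S g hb (by omega), show ((i + 1 : ℕ) : ℤ) + b - 37 = 9 by omega]
    exact piece_fwd hg hy (by omega) (by omega) ⟨by omega, by omega⟩ ⟨by omega, by omega⟩ c2

theorem moves_fwd {b i : ℕ} (hb : b < 16) (h : 45 - b < i) (h' : i < 77 - b)
    {c : Zd.Site (d + 2)} (hc : c ∈ sideZ m X S g b i) :
    Moves N r m X S g b i (sideAim r m X S g b i c) c := by
  rw [sideZ_fwd m X S g hb h] at hc
  obtain ⟨c0, c0', c1, c1', c2⟩ := hc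
  obtain ⟨n, hn, hA⟩ : ∃ n : ℕ, (n : ℤ) = m - r ∧
      sideAim r m X S g b i c = fwd n (S + g * (40 * m)) c :=
    ⟨_, Int.toNat_of_nonneg (by omega),
      by simp [sideAim, show ¬i < 45 - b by omega, show i ≠ 45 - b by omega, show i ≠ 0 by omega,
        show i ≠ 1 by omega]⟩
  have hgS : g * (S + g * (40 * m) - S) = 40 * m := by
    rcases hg with rfl | rfl <;> ring
  have hlo : (9 : ℤ) * m ≤ ((i : ℤ) + b - 37) * m :=
    mul_le_mul_of_nonneg_right (by omega) (by omega)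
  have hhi : ((i : ℤ) + b - 37) * m ≤ 39 * m :=
    mul_le_mul_of_nonneg_right (by omega) (by omega)
  rw [hA]
  refine ⟨by simp only [fwd]; omega, by simp only [fwd]; omega, fun j hij _ => ?_, fun y hy => ?_⟩
  · show Disjoint (ballEdges (d + 2) N n c (0, true)) _
    rcases later (d := d) m X S g hb hij with ⟨h', -⟩ | ⟨-, h', -⟩ | ⟨h', e⟩
    · omega
    · omega
    · rw [e]
      refine disjoint_ball_fwd hg ?_
      have : ((i : ℤ) + b - 37 + 1) * m ≤ ((j : ℤ) + b - 37) * m :=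
        mul_le_mul_of_nonneg_right (by omega) (by omega)
      linarith
  · simp only [fwd] at hy ⊢
    rw [sideZ_fwd m X S g hb (by omega)]
    exact piece_fwd hg hy (by omega) (by push_cast; linarith) ⟨by omega, c1⟩ ⟨by omega, c1'⟩ c2

theorem side_step (hp : p ∈ Set.Ioo (0 : ℝ) 1) (hδ : 0 < δ)
    (hX : |X| + 80 * m ≤ N) (hS : |S| + 80 * m ≤ N) (hm80 : 80 * m ≤ N)
    (q : Ed (d + 2) N → ℝ) (hq : ∀ e, q e ∈ Set.Icc (0 : ℝ) 1)
    (hqw : ∀ e, Within r m X S g 80 e →
      p ≤ q e ∧ (e ∉ halfSpace (d + 2) N (X + r) → q e = p))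
    (hcrit : ∀ n : ℕ, m ≤ (n : ℤ) + r → (n : ℤ) ≤ 9 * m →
      Crit (d + 2) p r n (spread (d + 2) r M) (δ ^ 2)) (a : Vt (d + 2) N) {b : ℕ} (hb : b < 16) :
    Pr q (HitGood (d + 2) N r (spread (d + 2) r M) p δ (zone m X S g 0 0 (-8) 8) (bin m X S g b)
          (fwd (m - r).toNat S) (halfSpace (d + 2) N (X + r)) a \
        HitGood (d + 2) N r (spread (d + 2) r M) p δ (zone m X S g 40 40 32 48)
          (zone m X S g 40 40 32 48) (fwd (m - r).toNat (S + g * (40 * m)))
          (halfSpace (d + 2) N (X + 40 * m + r)) a) ≤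
      (77 - b : ℕ) * hopErr (d + 2) r M p δ := by
  have haim0 : sideAim r m X S g b 0 = fwd (d := d) (m - r).toNat S := by
    funext c; simp [sideAim]
  have haimK : sideAim r m X S g b (77 - b) = fwd (d := d) (m - r).toNat (S + g * (40 * m)) := by
    funext c
    simp [sideAim, show 77 - b ≠ 0 by omega, show 77 - b ≠ 1 by omega,
      show ¬77 - b < 45 - b by omega, show 77 - b ≠ 45 - b by omega]
  have hZ0 : sideZ (d := d) m X S g b 0 = zone m X S g 0 0 (-8) 8 := by simp [sideZ, stage]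
  have hZK : sideZ (d := d) m X S g b (77 - b) = zone m X S g 40 40 32 48 := by
    rw [sideZ_fwd m X S g hb (by omega), show ((77 - b : ℕ) : ℤ) + b - 37 = 40 by omega]
  have hrad : ∀ i, 0 < i → i ≤ 77 - b → ∀ c ∈ sideZ (d := d) m X S g b i,
      m ≤ ((sideAim r m X S g b i c).n : ℤ) + r ∧
        ((sideAim r m X S g b i c).n : ℤ) ≤ 9 * m := by
    intro i hi hiK c hc
    by_cases h1 : i = 1
    · subst h1
      rw [sideZ_one] at hc
      obtain ⟨-, -, c1, c1', -⟩ := hc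
      simp only [sideAim, one_ne_zero, ↓reduceIte]
      rw [Int.toNat_of_nonneg (by linarith)]
      exact ⟨by linarith, by linarith⟩
    by_cases h2 : i < 45 - b
    · simp only [sideAim, hi.ne', h1, h2, ↓reduceIte]
      omega
    by_cases h3 : i = 45 - b
    · rw [sideZ_side m X S g (by omega) h3.le] at hc
      obtain ⟨c0, c0', -⟩ := hc
      simp only [sideAim, fwd, hi.ne', h1, h2, if_pos h3, ↓reduceIte]
      omega
    · simp only [sideAim, fwd, hi.ne', h1, h2, h3, ↓reduceIte]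
      omega
  have := run hp hδ hm hr hg hX hS hm80 q hq (U := 80) le_rfl (by norm_num) hqw hcrit (77 - b)
    (by omega) (stage b) (by simp [stage]) (sideZ m X S g b) (fun i => rfl) (bin m X S g b)
    (fun c hc => hZ0 ▸ hc.1) (sideAim r m X S g b) (sideDir g b) a
    ?_ ?_ ?_ hrad
  · rw [haim0, haimK, hZ0, hZK] at this
    exact this
  · intro i hi hiK
    unfold stage
    split_ifs <;> simp <;> omega
  · intro i j hij hjK
    unfold stage
    split_ifs <;> simp <;> omega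
  · intro i hi c hc hcJ
    have hdir := sideAim_dir (r := r) m X S g hb i c
    have hmv : Moves N r m X S g b i (sideAim r m X S g b i c) c := by
      rcases Nat.eq_zero_or_pos i with rfl | hi0
      · rw [haim0]
        exact moves_start hm hr hg hb (hcJ rfl)
      by_cases h1 : i = 1
      · subst h1
        exact moves_turn hm hr hg hb hc
      by_cases h2 : i < 45 - b
      · exact moves_side hm hr hg hb (by omega) h2 hc
      by_cases h3 : i = 45 - b
      · exact moves_back hm hr hg hb h3 hc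
      · exact moves_fwd hm hr hg hb (by omega) hi hc
    rw [← hdir]
    exact ⟨rfl, hmv⟩

end Step

/-! ### The first level -/

section Level

variable {d : ℕ} {m X S g : ℤ}

theorem zone_ahead (T : ℤ) :
    zone (d := d) m X S 1 T T (-8) 8 = zone m (X + T * m) S 1 0 0 (-8) 8 := by
  ext x
  simp only [zone, Set.mem_ofPred_eq, zero_mul, one_mul]
  constructor <;> rintro ⟨a1, a2, a3, a4, a5⟩ <;> exact ⟨by omega, by omega, a3, a4, a5⟩

theorem zone_sym (hg : g = 1 ∨ g = -1) :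
    zone (d := d) m X S g 0 0 (-8) 8 = zone m X S 1 0 0 (-8) 8 := by
  ext x
  simp only [zone, Set.mem_ofPred_eq]
  constructor <;> rintro ⟨a1, a2, a3, a4, a5⟩ <;> rcases hg with rfl | rfl <;>
    exact ⟨a1, a2, by linarith, by linarith, a5⟩

theorem zone_aside (hg : g = 1 ∨ g = -1) :
    zone (d := d) m X S g 40 40 32 48 = zone m (X + 40 * m) (S + g * (40 * m)) 1 0 0 (-8) 8 := by
  ext x
  simp only [zone, Set.mem_ofPred_eq]
  constructor <;> rintro ⟨a1, a2, a3, a4, a5⟩ <;> rcases hg with rfl | rfl <;>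
    exact ⟨by linarith, by linarith, by linarith, by linarith, a5⟩

theorem exists_bin (hm : 0 < m) {c : Zd.Site (d + 2)} (hc : c ∈ zone m X S g 0 0 (-8) 8) :
    ∃ b < 16, c ∈ bin m X S g b := by
  obtain ⟨-, -, h1, h2, -⟩ := id hc
  by_cases h : (7 : ℤ) * m ≤ g * (c 1 - S)
  · exact ⟨15, by omega, hc, by push_cast; linarith, by push_cast; linarith⟩
  have hq1 := Int.ediv_mul_le (g * (c 1 - S) + 8 * m) hm.ne'
  have hq2 := Int.lt_ediv_add_one_mul_self (g * (c 1 - S) + 8 * m) hm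
  set q := (g * (c 1 - S) + 8 * m) / m
  have q0 : 0 ≤ q := Int.ediv_nonneg (by linarith) hm.le
  have q15 : q < 15 := by
    by_contra hh
    nlinarith
  refine ⟨q.toNat, by omega, hc, ?_, ?_⟩ <;> rw [Int.toNat_of_nonneg q0]
  · linarith
  · linarith

/-- The probability of leaving a union of finitely many events. -/
theorem Pr_biUnion_sdiff_le {E : Type} [Fintype E] [DecidableEq E] {q : E → ℝ}
    (hq : ∀ e, q e ∈ Set.Icc (0 : ℝ) 1) (n : ℕ) (H : ℕ → Set (E → Bool))
    (G : Set (E → Bool)) {x : ℝ} (h : ∀ b < n, Pr q (H b \ G) ≤ x) :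
    Pr q ({w | ∃ b < n, w ∈ H b} \ G) ≤ n * x := by
  induction n with
  | zero => simp [Pr, Ev]
  | succ n ih =>
    refine (Pr_mono hq (B := ({w | ∃ b < n, w ∈ H b} \ G) ∪ (H n \ G)) ?_).trans
      ((Pr_union_le hq _ _).trans ?_)
    · rintro w ⟨⟨b, hb, hw⟩, hG⟩
      rcases Nat.lt_succ_iff_lt_or_eq.1 hb with hb | rfl
      · exact Or.inl ⟨⟨b, hb, hw⟩, hG⟩
      · exact Or.inr ⟨hw, hG⟩
    · push_cast
      linarith [ih fun b hb => h b (hb.trans n.lt_succ_self), h n n.lt_succ_self]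

end Level

end Base

/-- The seeds whose opening starts the renormalisation. -/
def start (d N r m : ℕ) : Set (Ed (d + 2) N) :=
  inside fun x => |x 0| ≤ r ∧ ∀ j, j ≠ 0 → |x j| ≤ 20 * (m : ℤ)

open Base in
/-- The first level: a system whose steps fail with probability a constant times the error of
one hop, and whose event at the origin follows from the openness of the starting seeds. -/
theorem base (d : ℕ) : ∃ K : ℝ, 0 < K ∧ ∀ (p δ : ℝ) (r m M N : ℕ) (a : Vt (d + 2) N),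
    p ∈ Set.Ioo (0 : ℝ) 1 → 0 < δ → δ < 1 → 1 ≤ r → 10 * r ≤ m → (a : Zd.Site (d + 2)) = 0 →
    (∀ n, m ≤ n + r → n ≤ 20 * m → Crit (d + 2) p r n (spread (d + 2) r M) (δ ^ 2)) →
    80 * m ≤ N →
    ∃ S : System d N p r (40 * m) (40 * m) (K * hopErr (d + 2) r M p δ) a,
      ∀ w, (∀ e ∈ start d N r m, w e = true) → w ∈ S.Hit 0 0 := by
  refine ⟨1300, by norm_num, fun p δ r m M N a hp hδ hδ1 hr hm ha hcrit hN => ?_⟩
  have hpI : p ∈ Set.Icc (0 : ℝ) 1 := Set.Ioo_subset_Icc_self hp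
  have hmZ : 10 * (r : ℤ) ≤ (m : ℤ) := by exact_mod_cast hm
  have hcrit' : ∀ n : ℕ, (m : ℤ) ≤ (n : ℤ) + r → (n : ℤ) ≤ 9 * (m : ℤ) →
      Crit (d + 2) p r n (spread (d + 2) r M) (δ ^ 2) :=
    fun n h1 h2 => hcrit n (by omega) (by omega)
  have herr : 0 ≤ hopErr (d + 2) r M p δ := by
    have h1 := pow_le_one₀ (n := (d + 2) * (2 * r + 1) ^ (d + 2 - 1) * (2 * r)) hpI.1 hpI.2
    have h0 := pow_nonneg hpI.1 ((d + 2) * (2 * r + 1) ^ (d + 2 - 1) * (2 * r))
    exact add_nonneg (add_nonneg hδ.le (pow_nonneg (sub_nonneg.2 h1) _))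
      (mul_nonneg (mul_nonneg (Nat.cast_nonneg M) h0) hδ.le)
  let L : ℤ := ((40 * m : ℕ) : ℤ)
  let block : ℤ → ℤ → Set (Zd.Site (d + 2)) := fun t s => zone (m : ℤ) (L * t) (L * s) 1 0 0 (-8) 8
  let Hit : ℤ → ℤ → Set (Ed (d + 2) N → Bool) := fun t s =>
    HitGood (d + 2) N r (spread (d + 2) r M) p δ (block t s) (block t s)
      (fwd ((m : ℤ) - r).toNat (L * s)) (halfSpace (d + 2) N (L * t + r)) a
  have hL : L = 40 * (m : ℤ) := by simp [L]
  refine ⟨{
      Hit := Hit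
      mono := fun t s => hitGood_upper hpI ..
      local_hit := fun t s => hitGood_local le_rfl _ (fun e he => ?_) a
      reach := fun t s w hw => ?_
      step := fun t s dl q hdl hfit hadm => ?_ }, fun w hw => ?_⟩
  · have h1 := (slab_bounds (Or.inl rfl) he (Or.inl rfl)).2.1
    have h2 := (slab_bounds (Or.inl rfl) he (Or.inr rfl)).2.1
    exact ⟨by change _ ≤ L * t + r; omega, by change _ ≤ L * t + r; omega⟩
  · obtain ⟨c, hc, -, hcl⟩ := hw
    refine ⟨c, cluster_mono (fun e => ?_) a hcl, ?_⟩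
    · by_cases he : e ∈ halfSpace (d + 2) N (L * t + r) <;> simp [shut, he]
    · have := hc.1
      change L * t - r ≤ _
      omega
  · obtain ⟨hq, hreg⟩ := hadm
    have hfit1 : (40 * (m : ℤ)) * (|t| + 2) ≤ N := hL ▸ hfit.1
    have hfit2 : (40 * (m : ℤ)) * (|s| + 2) ≤ N := hL ▸ hfit.2
    have hX : |L * t| + 80 * (m : ℤ) ≤ N := by
      rw [abs_mul, hL, abs_of_nonneg (by omega : (0 : ℤ) ≤ 40 * m)]
      linarith
    have hS : |L * s| + 80 * (m : ℤ) ≤ N := by
      rw [abs_mul, hL, abs_of_nonneg (by omega : (0 : ℤ) ≤ 40 * m)]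
      linarith
    have hqw : ∀ g U : ℤ, ((dl = 0 ∧ g = 1 ∧ U = 40) ∨ ((g = 1 ∨ g = -1) ∧ g = dl ∧ U = 80)) →
        ∀ e, Within r (m : ℤ) (L * t) (L * s) g U e →
          p ≤ q e ∧ (e ∉ halfSpace (d + 2) N (L * t + r) → q e = p) := by
      intro g U hgU e he
      refine hreg e ⟨?_, ?_⟩
      · obtain ⟨a1, a2, a3, a4⟩ := he _ (Or.inl rfl)
        rcases hgU with ⟨rfl, rfl, rfl⟩ | ⟨hg, rfl, rfl⟩
        · refine ⟨by linarith, by linarith, ?_, ?_⟩ <;> simp only [add_zero, min_self, max_self] <;>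
            linarith
        · rcases hg with rfl | rfl
          · rw [min_eq_left (by omega), max_eq_right (by omega)]
            exact ⟨by linarith, by linarith, by linarith, by linarith⟩
          · rw [min_eq_right (by omega), max_eq_left (by omega)]
            exact ⟨by linarith, by linarith, by linarith, by linarith⟩
      · obtain ⟨a1, a2, a3, a4⟩ := he _ (Or.inr rfl)
        rcases hgU with ⟨rfl, rfl, rfl⟩ | ⟨hg, rfl, rfl⟩
        · refine ⟨by linarith, by linarith, ?_, ?_⟩ <;> simp only [add_zero, min_self, max_self] <;>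
            linarith
        · rcases hg with rfl | rfl
          · rw [min_eq_left (by omega), max_eq_right (by omega)]
            exact ⟨by linarith, by linarith, by linarith, by linarith⟩
          · rw [min_eq_right (by omega), max_eq_left (by omega)]
            exact ⟨by linarith, by linarith, by linarith, by linarith⟩
    have hX1 : L * (t + 1) = L * t + 40 * (m : ℤ) := by rw [mul_add, mul_one, hL]
    by_cases h0 : dl = 0
    · subst h0
      have := straight_step hp hδ hmZ hr hX hS (by omega) q hq (hqw 1 40 (Or.inl ⟨rfl, rfl, rfl⟩))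
        hcrit' a
      simp only [straightZ, Nat.cast_zero, Nat.cast_ofNat] at this
      rw [zone_ahead 40] at this
      simp only [Hit, block, add_zero, hX1]
      linarith
    · have hg : dl = 1 ∨ dl = -1 := by have := abs_le.1 hdl; omega
      have hS1 : L * (s + dl) = L * s + dl * (40 * (m : ℤ)) := by rw [hL]; ring
      have key := fun b hb => side_step (d := d) (M := M) hmZ hr hg hp hδ hX hS (by omega) q hq
        (hqw dl 80 (Or.inr ⟨hg, rfl, rfl⟩)) hcrit' a (b := b) hb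
      simp only [Hit, block, hX1, hS1, ← zone_aside hg]
      set G := HitGood (d + 2) N r (spread (d + 2) r M) p δ
        (zone (m : ℤ) (L * t) (L * s) dl 40 40 32 48) (zone (m : ℤ) (L * t) (L * s) dl 40 40 32 48)
        (fwd ((m : ℤ) - r).toNat (L * s + dl * (40 * (m : ℤ))))
        (halfSpace (d + 2) N (L * t + 40 * (m : ℤ) + r)) a with hGdef
      refine le_trans (Pr_mono hq (B := {w | ∃ b < 16, w ∈ HitGood (d + 2) N r (spread (d + 2) r M)
        p δ (block t s) (bin (m : ℤ) (L * t) (L * s) dl b) (fwd ((m : ℤ) - r).toNat (L * s))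
          (halfSpace (d + 2) N (L * t + r)) a} \ G) ?_)
        ((Pr_biUnion_sdiff_le hq 16 _ G (x := 77 * hopErr (d + 2) r M p δ) fun b hb => ?_).trans ?_)
      · rintro w ⟨⟨c, hc, hg', hcl⟩, hout⟩
        obtain ⟨b, hb, hcb⟩ := exists_bin (g := dl) (by omega)
          (show (c : Zd.Site (d + 2)) ∈ zone (m : ℤ) (L * t) (L * s) dl 0 0 (-8) 8 from
            zone_sym hg ▸ hc)
        exact ⟨⟨b, hb, c, hcb, hg', hcl⟩, hout⟩
      · have := key b hb
        rw [zone_sym hg] at this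
        refine this.trans (mul_le_mul_of_nonneg_right ?_ herr)
        exact_mod_cast (by omega : 77 - b ≤ 77)
      · push_cast
        linarith
  · have hslab : ∀ e ∈ slab (d + 2) N r (block 0 0), w e = true := fun e he => hw e (by
      refine ⟨?_, ?_⟩
      · obtain ⟨b0, b1, b2, b3, b4⟩ := slab_bounds (Or.inl rfl) he (Or.inl rfl)
        refine ⟨abs_le.2 ⟨by omega, by omega⟩, fun j hj => ?_⟩
        by_cases hj1 : j = 1
        · subst hj1; exact abs_le.2 ⟨by omega, by omega⟩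
        · exact (b4 j hj hj1).trans (by omega)
      · obtain ⟨b0, b1, b2, b3, b4⟩ := slab_bounds (Or.inl rfl) he (Or.inr rfl)
        refine ⟨abs_le.2 ⟨by omega, by omega⟩, fun j hj => ?_⟩
        by_cases hj1 : j = 1
        · subst hj1; exact abs_le.2 ⟨by omega, by omega⟩
        · exact (b4 j hj hj1).trans (by omega))
    have ha0 : ∀ j, (a : Zd.Site (d + 2)) j = 0 := fun j => by rw [ha]; rfl
    have hablock : (a : Zd.Site (d + 2)) ∈ block 0 0 :=
      ⟨by simp [ha0], by simp [ha0], by simp [ha0], by simp [ha0], fun j _ _ => by simp [ha0]⟩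
    refine ⟨a, hablock, ⟨fun e he => hslab e (Set.mem_biUnion hablock he), ?_⟩,
      mem_cluster_self _ _⟩
    refine le_trans (by nlinarith : 1 - δ ≤ 1 - δ ^ 2) (crit_transfer hpI
      (hcrit _ (by simp only [fwd]; omega) (by simp only [fwd]; omega)) _ (fun j => ?_) _ _ _ (fixOut_mem (fun _ => hpI) _ _)
      fun e _ => ?_)
    · simp only [ha0, abs_zero, fwd]
      omega
    · by_cases he : e ∈ slab (d + 2) N r (block 0 0)
      · simp [fixOut, he, hslab e he, hp.2.le]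
      · simp [fixOut, he]

end Vale.Agent.P151.Renorm
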