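import Vale.Agent.P151.Renorm.Defs
import Vale.Agent.P151.Zd.Finitary

/-!
# Between the finite window and percolation on the lattice
-/

open Finset MeasureTheory ProbabilityTheory

namespace Vale.Agent.P151.Renorm

open Glue0 Vale.Agent.P165

variable {d N : ℕ}

/-- An edge of the window as an edge of the lattice. -/
def toEdge (d N : ℕ) (e : Ed d N) : (Zd.zd d).edgeSet :=
  ⟨s(((ends d N e).1 : Zd.Site d), ((ends d N e).2 : Zd.Site d)),
    (Zd.step_labelling d).adj_nb _ (e.1.2, true)⟩

theorem unit_inj {d : ℕ} {i j : Fin d} (h : Zd.unit (i, true) = Zd.unit (j, true)) : i = j := by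
  by_contra hne
  have := congrFun h i
  simp [Zd.unit, hne] at this

theorem toEdge_injective (d N : ℕ) : Function.Injective (toEdge d N) := by
  rintro ⟨⟨x, i⟩, hx⟩ ⟨⟨y, j⟩, hy⟩ h
  have h' := congrArg Subtype.val h
  simp only [toEdge, ends, Sym2.eq_iff] at h'
  rcases h' with ⟨h1, h2⟩ | ⟨h1, h2⟩
  · have hxy : x = y := Subtype.ext h1
    subst hxy
    have : i = j := unit_inj (add_left_cancel h2)
    subst this
    rfl
  · exfalso
    have h3 : (x : Zd.Site d) + Zd.unit (i, true) + Zd.unit (j, true) = x := by
      rw [h2, ← h1]
    have h4 := congrFun h3 i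
    by_cases hij : i = j
    · subst hij; simp [Zd.unit] at h4; omega
    · simp [Zd.unit, hij] at h4

/-- The configuration seen in the window. -/
def windowConf (d N : ℕ) (ω : Config (Zd.zd d)) : Ed d N → Bool := fun e => ω (toEdge d N e)

/-- A window event, seen on the lattice. -/
def windowEv (d N : ℕ) (H : Set (Ed d N → Bool)) : Set (Config (Zd.zd d)) := windowConf d N ⁻¹' H

/-- The probability of a window event. -/
theorem perc_windowEv (p : unitInterval) (H : Set (Ed d N → Bool)) :
    (perc (Zd.zd d) p).real (windowEv d N H) = Pr (fun _ : Ed d N => (p : ℝ)) H := by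
  classical
  have hm : Measurable (windowConf d N) :=
    measurable_pi_lambda _ fun e => measurable_pi_apply _
  have hmap : (perc (Zd.zd d) p).map (windowConf d N)
      = Measure.infinitePi fun _ : Ed d N => bernoulliMeasure true false p :=
    Measure.map_infinitePi_infinitePi_of_inj (toEdge_injective d N)
  rw [windowEv, measureReal_def, ← Measure.map_apply hm (Set.toFinite H).measurableSet, hmap,
    ← measureReal_def, ← Set.coe_toFinset H, ← sum_measureReal_singleton, Pr, Ev]
  rw [← sum_subset (subset_univ H.toFinset) (fun w _ hw => by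
    rw [Set.indicator_of_notMem (by simpa using hw), mul_zero])]
  refine sum_congr rfl fun w hw => ?_
  rw [Set.indicator_of_mem (by simpa using hw), Pi.one_apply, mul_one, wgt, measureReal_def,
    Measure.infinitePi_singleton_of_fintype, ENNReal.toReal_prod]
  refine prod_congr rfl fun e _ => ?_
  rw [← measureReal_def]
  cases w e <;> simp

/-- An open path of the window is an open path of the lattice. -/
theorem reachable_of_cluster {ω : Config (Zd.zd d)} {x y : Vt d N}
    (h : y ∈ cluster (ends d N) (windowConf d N ω) x) :
    (openGraph (Zd.zd d) ω).Reachable (x : Zd.Site d) y := by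
  change Relation.ReflTransGen (openAdj (ends d N) (windowConf d N ω)) x y at h
  induction h with
  | refl => exact SimpleGraph.Reachable.refl _
  | @tail b c _ hbc ih =>
    refine ih.trans (SimpleGraph.Adj.reachable ?_)
    obtain ⟨e, he, hee⟩ := hbc
    have hadj := (Zd.step_labelling d).adj_nb ((ends d N e).1 : Zd.Site d) (e.1.2, true)
    have hopen : (openGraph (Zd.zd d) ω).Adj ((ends d N e).1 : Zd.Site d) (ends d N e).2 :=
      ⟨hadj, he⟩
    rcases hee with hee | hee <;> rw [hee] at hopen
    · exact hopen
    · exact hopen.symm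

end Vale.Agent.P151.Renorm
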