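import Vale.Agent.P151.Renorm.Defs

/-!
# The criterion at parameter one, and continuity of the criterion in the parameter
-/

open Finset Filter Topology

namespace Vale.Agent.P151.Renorm

open Glue0

variable {d N : ℕ}

theorem open_edge {n : ℕ} {c : Zd.Site d} {k : Fin d × Bool} {x y : Vt d N} (i : Fin d)
    (hxy : (x : Zd.Site d) = (y : Zd.Site d) + Zd.unit (i, true) ∨
      (y : Zd.Site d) = (x : Zd.Site d) + Zd.unit (i, true))
    (hx : ∀ j, |(x : Zd.Site d) j - c j| ≤ n) (hy : ∀ j, |(y : Zd.Site d) j - c j| ≤ n)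
    (hface : ((x : Zd.Site d) k.1 - c k.1) * (if k.2 then 1 else -1) ≠ n ∨
      ((y : Zd.Site d) k.1 - c k.1) * (if k.2 then 1 else -1) ≠ n) :
    openAdj (ends d N) (shut (ballEdges d N n c k)ᶜ fun _ => true) x y := by
  classical
  rcases hxy with h | h
  · refine ⟨⟨(y, i), h ▸ x.2⟩, ?_, Or.inr ?_⟩
    · rw [shut, if_neg]
      refine not_not.2 ⟨⟨hy, ?_⟩, fun hin => ?_⟩
      · show ∀ j, |((y : Zd.Site d) + Zd.unit (i, true)) j - c j| ≤ n
        rw [← h]
        exact hx
      · obtain ⟨h1, h2⟩ := hin
        rcases hface with hf | hf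
        · refine hf ?_
          rw [h]
          exact h2
        · exact hf h1
    · exact Prod.ext rfl (Subtype.ext h.symm)
  · refine ⟨⟨(x, i), h ▸ y.2⟩, ?_, Or.inl ?_⟩
    · rw [shut, if_neg]
      refine not_not.2 ⟨⟨hx, ?_⟩, fun hin => ?_⟩
      · show ∀ j, |((x : Zd.Site d) + Zd.unit (i, true)) j - c j| ≤ n
        rw [← h]
        exact hy
      · obtain ⟨h1, h2⟩ := hin
        rcases hface with hf | hf
        · exact hf h1
        · refine hf ?_
          rw [h]
          exact h2
    · exact Prod.ext rfl (Subtype.ext h.symm)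

/-- With every edge open, the whole ball hangs on its centre, without the edges in the face. -/
theorem mem_cluster_ball {n : ℕ} (hn : 1 ≤ n) (k : Fin d × Bool) (o : Vt d n)
    (ho : (o : Zd.Site d) = 0) (x : Vt d n) :
    x ∈ cluster (ends d n) (shut (ballEdges d n n 0 k)ᶜ fun _ => true) o := by
  classical
  suffices ∀ (L : ℕ) (x : Vt d n), (∑ j, ((x : Zd.Site d) j).natAbs) = L →
      Relation.ReflTransGen (openAdj (ends d n) (shut (ballEdges d n n 0 k)ᶜ fun _ => true)) o x
    from this _ x rfl
  intro L
  induction L with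
  | zero =>
    intro x hx
    have : x = o := Subtype.ext (funext fun j => by
      rw [ho]
      simpa using (Finset.sum_eq_zero_iff.1 hx) j (mem_univ j))
    rw [this]
  | succ L ih =>
    intro x hx
    set xs : Zd.Site d := (x : Zd.Site d) with hxs
    obtain ⟨i, hi, hface⟩ : ∃ i, xs i ≠ 0 ∧
        (xs k.1 * (if k.2 then 1 else -1) = (n : ℤ) → i = k.1) := by
      by_cases hf : xs k.1 * (if k.2 then 1 else -1) = (n : ℤ)
      · refine ⟨k.1, fun h0 => ?_, fun _ => rfl⟩
        rw [h0, zero_mul] at hf
        omega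
      · obtain ⟨i, -, hi⟩ : ∃ i ∈ (univ : Finset (Fin d)), (xs i).natAbs ≠ 0 :=
          Finset.exists_ne_zero_of_sum_ne_zero (by rw [hx]; omega)
        exact ⟨i, fun h0 => hi (by simp [h0]), fun h => absurd h hf⟩
    set ys : Zd.Site d := Function.update xs i (xs i - (xs i).sign) with hys
    have hbox := Zd.mem_box.1 x.2
    rw [← hxs] at hbox
    have hle : ∀ j, |ys j| ≤ n := by
      intro j
      by_cases h : j = i
      · subst h
        have hb := abs_le.1 (hbox j)
        rw [hys, Function.update_self, abs_le]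
        rcases lt_or_gt_of_ne hi with h | h
        · rw [Int.sign_eq_neg_one_of_neg h]; omega
        · rw [Int.sign_eq_one_of_pos h]; omega
      · rw [hys, Function.update_of_ne h]
        exact hbox j
    let y : Vt d n := ⟨ys, Zd.mem_box.2 hle⟩
    have hL : (∑ j, (ys j).natAbs) = L := by
      rw [← Finset.add_sum_erase _ _ (mem_univ i)] at hx ⊢
      have hrest : ∑ j ∈ univ.erase i, (ys j).natAbs = ∑ j ∈ univ.erase i, (xs j).natAbs :=
        Finset.sum_congr rfl fun j hj => by
          rw [hys, Function.update_of_ne (ne_of_mem_erase hj)]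
      rw [hrest, hys, Function.update_self]
      rcases lt_or_gt_of_ne hi with h | h
      · rw [Int.sign_eq_neg_one_of_neg h]; omega
      · rw [Int.sign_eq_one_of_pos h]; omega
    refine (ih y hL).tail (open_edge i ?_ (fun j => by simpa using hle j)
      (fun j => by simpa using hbox j) ?_)
    · rcases lt_or_gt_of_ne hi with h | h
      · left
        funext j
        by_cases hj : j = i
        · subst hj
          simp [y, hys, Zd.unit, ← hxs, Int.sign_eq_neg_one_of_neg h]
        · simp [y, hys, Zd.unit, hj, ← hxs]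
      · right
        funext j
        by_cases hj : j = i
        · subst hj
          simp [y, hys, Zd.unit, ← hxs, Int.sign_eq_one_of_pos h]
        · simp [y, hys, Zd.unit, hj, ← hxs]
    · by_cases hf : xs k.1 * (if k.2 then 1 else -1) = (n : ℤ)
      · left
        have hik := hface hf
        subst hik
        show (ys k.1 - (0 : Zd.Site d) k.1) * _ ≠ (n : ℤ)
        rw [hys, Function.update_self, Pi.zero_apply, sub_zero, sub_mul, hf]
        rcases lt_or_gt_of_ne hi with h | h
        · rw [Int.sign_eq_neg_one_of_neg h]; split <;> omega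
        · rw [Int.sign_eq_one_of_pos h]; split <;> omega
      · right
        simpa [← hxs] using hf

/-- At parameter one the criterion holds for every large radius. -/
theorem crit_one (d r n M : ℕ) {ε : ℝ} (hε : 0 ≤ ε) (hn : 1 ≤ n) (hM : M ≤ n) :
    Crit (d + 2) 1 r n M ε := by
  classical
  intro k σ
  have hall : ∀ w : Ed (d + 2) n → Bool, wgt (fun _ => (1 : ℝ)) w ≠ 0 → w = fun _ => true := by
    intro w hw
    funext e
    by_contra he
    apply hw
    refine prod_eq_zero (mem_univ e) ?_
    simp [he]
  have hmem : (fun _ => true) ∈ manyHits (d + 2) n r n M 0 k σ := by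
    obtain ⟨i, hik⟩ := exists_ne k.1
    let pt : ℕ → Zd.Site (d + 2) := fun l j =>
      if j = k.1 then (if k.2 then (n : ℤ) else -(n : ℤ))
      else if j = i then (if σ j then (l : ℤ) else -(l : ℤ)) else 0
    have hpt : ∀ l ≤ n, pt l ∈ Zd.box (d + 2) n := fun l hl => Zd.mem_box.2 fun j => by
      simp only [pt]
      split_ifs <;> simp <;> omega
    let f : Fin M → Vt (d + 2) n := fun l => ⟨pt l, hpt l (l.2.le.trans hM)⟩
    have hf : Function.Injective f := by
      intro a b hab
      have h := congrFun (congrArg Subtype.val hab) i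
      simp only [f, pt, if_neg hik] at h
      ext
      split_ifs at h <;> omega
    calc M = (Set.range f).ncard := by
          rw [← Nat.card_coe_set_eq, Nat.card_range_of_injective hf, Nat.card_eq_fintype_card,
            Fintype.card_fin]
      _ ≤ _ := Set.ncard_le_ncard ?_ (Set.toFinite _)
    rintro _ ⟨l, rfl⟩
    have hl : (l : ℕ) ≤ n := l.2.le.trans hM
    refine ⟨?_, ⟨0, Zd.mem_box.2 fun j => by simp⟩, fun j => by simp,
      mem_cluster_ball hn k ⟨0, Zd.mem_box.2 fun j => by simp⟩ rfl (f l)⟩
    simp only [piece, mem_filter, mem_univ, true_and, f, pt, Pi.zero_apply, sub_zero, if_true]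
    refine ⟨by split_ifs <;> ring, fun j hj => ?_⟩
    simp only [if_neg hj]
    by_cases hji : j = i
    · simp only [if_pos hji]
      split_ifs <;> omega
    · simp only [if_neg hji, zero_mul]
      omega
  have hEv : Pr (fun _ : Ed (d + 2) n => (1 : ℝ)) (manyHits (d + 2) n r n M 0 k σ) = 1 := by
    refine Eq.trans ?_ (sum_wgt fun _ : Ed (d + 2) n => (1 : ℝ))
    refine sum_congr rfl fun w _ => ?_
    by_cases hw : wgt (fun _ => (1 : ℝ)) w = 0
    · rw [hw, zero_mul]
    · rw [hall w hw, Set.indicator_of_mem hmem, Pi.one_apply, mul_one]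
  linarith

/-- A criterion holding with room to spare holds at nearby parameters. -/
theorem crit_eventually (d r n M : ℕ) {p ε ε' : ℝ} (hε : ε' < ε) (h : Crit d p r n M ε') :
    ∀ᶠ x in 𝓝 p, Crit d x r n M ε := by
  unfold Crit at h ⊢
  rw [eventually_all]
  intro k
  rw [eventually_all]
  intro σ
  have hcont : Continuous fun x : ℝ =>
      Pr (fun _ : Ed d n => x) (manyHits d n r n M 0 k σ) :=
    (continuous_Ev ((manyHits d n r n M 0 k σ).indicator 1)).comp
      (continuous_pi fun _ => continuous_id)
  exact (hcont.tendsto p).eventually (eventually_ge_nhds (by linarith [h k σ]))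

end Vale.Agent.P151.Renorm
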