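import Vale.Agent.P151.Glue0.Main
import Vale.Agent.P151.Glue0.Toolkit
import Vale.Agent.P151.Zd.Lattice

/-!
# Renormalisation by gluing: shared definitions

Configurations live on the edges of a finite window `box d N`, with one weight per edge.
Events are sets of configurations; a region is a set of edges. Coordinate `0` is the direction
of the renormalisation and coordinate `1` its lateral direction.
-/

open Finset

namespace Vale.Agent.P151.Renorm

open Glue0

/-- The vertices of the window. -/
abbrev Vt (d N : ℕ) : Type := ↥(Zd.box d N)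

/-- The edges of the window, by lower end and direction. -/
abbrev Ed (d N : ℕ) : Type :=
  {b : Vt d N × Fin d // (b.1 : Zd.Site d) + Zd.unit (b.2, true) ∈ Zd.box d N}

/-- The two ends of an edge. -/
def ends (d N : ℕ) (e : Ed d N) : Vt d N × Vt d N :=
  (e.1.1, ⟨(e.1.1 : Zd.Site d) + Zd.unit (e.1.2, true), e.2⟩)

/-- The edges with both ends satisfying `P`. -/
def inside {d N : ℕ} (P : Zd.Site d → Prop) : Set (Ed d N) :=
  {e | P (ends d N e).1 ∧ P (ends d N e).2}

variable {d N : ℕ}

/-- The edges whose two ends have forward coordinate at most `X`. -/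
def halfSpace (d N : ℕ) [NeZero d] (X : ℤ) : Set (Ed d N) := inside fun x => x 0 ≤ X

/-- The region of one step of a level: from time `t` to `t + 1`, from lateral position `s` to
`s + δ`, in time units `A` and lateral units `B`. -/
def region (d N : ℕ) (A B : ℕ) (r : ℕ) (t s δ : ℤ) : Set (Ed (d + 2) N) :=
  inside fun x => (A : ℤ) * (t - 1) ≤ x 0 ∧ x 0 ≤ A * (t + 1) + r ∧
    (B : ℤ) * (min s (s + δ) - 1) ≤ x 1 ∧ x 1 ≤ B * (max s (s + δ) + 1)

/-- The step fits in the window. -/
def Fits (N A B : ℕ) (t s : ℤ) : Prop :=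
  (A : ℤ) * (|t| + 2) ≤ N ∧ (B : ℤ) * (|s| + 2) ≤ N

/-- Admissible weights for a step: at least `p` on its region, exactly `p` where the region
is ahead of its start. -/
def Admissible {d N : ℕ} (A B r : ℕ) (p : ℝ) (t s δ : ℤ) (q : Ed (d + 2) N → ℝ) : Prop :=
  (∀ e, q e ∈ Set.Icc (0 : ℝ) 1) ∧
    ∀ e ∈ region d N A B r t s δ,
      p ≤ q e ∧ (e ∉ halfSpace (d + 2) N ((A : ℤ) * t + r) → q e = p)

/-- A renormalised level: an event for every position, seen from the fixed vertex `a`, such that
whatever happens outside the region of a step, the step fails with probability at most `ε`. -/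
structure System (d N : ℕ) (p : ℝ) (r : ℕ) (A B : ℕ) (ε : ℝ) (a : Vt (d + 2) N) where
  /-- The event of a position. -/
  Hit : ℤ → ℤ → Set (Ed (d + 2) N → Bool)
  mono : ∀ t s, IsUpperSet (Hit t s)
  local_hit : ∀ t s, LocalEv (halfSpace (d + 2) N ((A : ℤ) * t + r)) (Hit t s)
  reach : ∀ t s w, w ∈ Hit t s →
    ∃ y ∈ cluster (ends (d + 2) N) w a, (A : ℤ) * t - r ≤ (y : Zd.Site (d + 2)) 0
  step : ∀ (t s δ : ℤ) (q : Ed (d + 2) N → ℝ), |δ| ≤ 1 → Fits N A B t s →
    Admissible A B r p t s δ q → Pr q (Hit t s \ Hit (t + 1) (s + δ)) ≤ ε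

/-- The edges of a box of radius `r` around a site. -/
def boxEdges (d N : ℕ) (r : ℕ) (c : Zd.Site d) : Set (Ed d N) :=
  inside fun x => ∀ j, |x j - c j| ≤ r

/-- The edges used inside the ball of radius `n` around `c`, towards the face in the signed
direction `k`: those lying in that face are left out. -/
def ballEdges (d N : ℕ) (n : ℕ) (c : Zd.Site d) (k : Fin d × Bool) : Set (Ed d N) :=
  inside (fun x => ∀ j, |x j - c j| ≤ n) \
    inside (fun x => (x k.1 - c k.1) * (if k.2 then 1 else -1) = n)

/-- The piece of that face selected by the transverse signs `σ`. -/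
noncomputable def piece (d N : ℕ) (n : ℕ) (c : Zd.Site d) (k : Fin d × Bool) (σ : Fin d → Bool) :
    Finset (Vt d N) := by
  classical exact univ.filter fun x =>
    ((x : Zd.Site d) k.1 - c k.1) * (if k.2 then 1 else -1) = n ∧
      ∀ j, j ≠ k.1 → 0 ≤ ((x : Zd.Site d) j - c j) * (if σ j then 1 else -1) ∧
        ((x : Zd.Site d) j - c j) * (if σ j then 1 else -1) ≤ n

/-- At least `M` points of the piece are joined to the box of radius `r` inside the ball. -/
def manyHits (d N : ℕ) (r n M : ℕ) (c : Zd.Site d) (k : Fin d × Bool) (σ : Fin d → Bool) :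
    Set (Ed d N → Bool) :=
  {w | M ≤ {y : Vt d N | y ∈ piece d N n c k σ ∧ ∃ x : Vt d N,
    (∀ j, |(x : Zd.Site d) j - c j| ≤ r) ∧
      y ∈ cluster (ends d N) (shut (ballEdges d N n c k)ᶜ w) x}.ncard}

/-- The finite criterion: in the window of radius `n`, every piece of every face gets at least
`M` hits from the central box with probability at least `1 - ε`. -/
def Crit (d : ℕ) (p : ℝ) (r n M : ℕ) (ε : ℝ) : Prop :=
  ∀ (k : Fin d × Bool) (σ : Fin d → Bool),
    1 - ε ≤ Pr (fun _ : Ed d n => p) (manyHits d n r n M 0 k σ)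

/-- Where a seed centred at `c` aims: a radius, a signed direction and transverse signs. -/
structure Aim (d : ℕ) where
  /-- The radius of the ball. -/
  n : ℕ
  /-- The signed direction. -/
  k : Fin d × Bool
  /-- The transverse signs. -/
  σ : Fin d → Bool

/-- The edges of the seeds centred in `I`. -/
def slab (d N r : ℕ) (I : Set (Zd.Site d)) : Set (Ed d N) := ⋃ c ∈ I, boxEdges d N r c

/-- A good seed: its box is open and, given the states of all seeds of its zone, its ball has
many hits with probability at least `1 - δ` at parameter `p`. -/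
def Good (d N r M : ℕ) (p δ : ℝ) (I : Set (Zd.Site d)) (aim : Zd.Site d → Aim d)
    (c : Zd.Site d) (w : Ed d N → Bool) : Prop :=
  (∀ e ∈ boxEdges d N r c, w e = true) ∧
    1 - δ ≤ Pr (fixOut (slab d N r I)ᶜ w fun _ => p)
      (manyHits d N r (aim c).n M c (aim c).k (aim c).σ)

/-- The vertex `a` is joined inside `A` to a seed in `J` that is good for the zone `I`. -/
def HitGood (d N r M : ℕ) (p δ : ℝ) (I J : Set (Zd.Site d)) (aim : Zd.Site d → Aim d)
    (A : Set (Ed d N)) (a : Vt d N) : Set (Ed d N → Bool) :=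
  {w | ∃ c : Vt d N, (c : Zd.Site d) ∈ J ∧ Good d N r M p δ I aim c w ∧
    c ∈ cluster (ends d N) (shut Aᶜ w) a}

/-- The bound on the failure probability of one hop. -/
noncomputable def hopErr (d r M : ℕ) (p δ : ℝ) : ℝ :=
  let π := p ^ (d * (2 * r + 1) ^ (d - 1) * (2 * r))
  δ + (1 - π) ^ M + M * π * δ

/-- The number of hits to ask for in order to find `M` seeds with disjoint boxes among them. -/
def spread (d r M : ℕ) : ℕ := M * (4 * r + 3) ^ d

end Vale.Agent.P151.Renorm
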