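import Vale.Agent.P151.Renorm.GMWindow

/-!
# The finite criterion from percolation (Grimmett and Marstrand)

If the origin percolates, a large box is joined inside a much larger box to many points of every
piece of every face, with probability close to one: few first hits on the sphere could all be
cut off at a bounded cost, and the square-root trick with the symmetries spreads the hits.
-/

open Finset MeasureTheory Filter Topology

namespace Vale.Agent.P151.Renorm

open Glue0 Vale.Agent.P165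

variable {d N : ℕ}

/-- On the sphere of radius `n`. -/
def OnSphere (n : ℕ) (x : Zd.Site d) : Prop := ∃ i, |x i| = (n : ℤ)

/-- The edges of the ball lying in no face. -/
def coreEdges (d N n : ℕ) : Set (Ed d N) :=
  inside (fun x => ∀ j, |x j| ≤ (n : ℤ)) \ ⋃ k : Fin d × Bool,
    inside (fun x => x k.1 * (if k.2 then 1 else -1) = (n : ℤ))

theorem coreEdges_subset (n : ℕ) (k : Fin d × Bool) :
    coreEdges d N n ⊆ ballEdges d N n 0 k := by
  intro e he
  obtain ⟨h1, h2⟩ := he
  refine ⟨by simpa [inside] using h1, fun h => h2 (Set.mem_iUnion.2 ⟨k, ?_⟩)⟩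
  simpa [inside] using h

/-- The first hits of the sphere of radius `n` from the box of radius `r`. -/
def firstHits (d N r n : ℕ) (w : Ed d N → Bool) : Set (Vt d N) :=
  {y | OnSphere n (y : Zd.Site d) ∧ ∃ x : Vt d N, (∀ j, |(x : Zd.Site d) j| ≤ (r : ℤ)) ∧
    y ∈ cluster (ends d N) (shut (coreEdges d N n)ᶜ w) x}

theorem firstHits_local (d N r n : ℕ) (P : Set (Vt d N) → Prop) :
    LocalEv (coreEdges d N n) {w | P (firstHits d N r n w)} := by
  intro w w' h
  have e : shut (coreEdges d N n)ᶜ w = shut (coreEdges d N n)ᶜ w' := by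
    funext e
    by_cases he : e ∈ coreEdges d N n
    · simp [shut, he, h e he]
    · simp [shut, he]
  simp only [firstHits, Set.mem_ofPred_eq, e]

theorem firstHits_ncard_le (n r M : ℕ) {w : Ed d n → Bool}
    (h : ∀ q : (Fin d × Bool) × (Fin d → Bool), w ∉ manyHits d n r n M 0 q.1 q.2) :
    (firstHits d n r n w).ncard
      ≤ Fintype.card ((Fin d × Bool) × (Fin d → Bool)) * M := by
  classical
  set H : (Fin d × Bool) × (Fin d → Bool) → Set (Vt d n) := fun q =>
    {y | y ∈ piece d n n 0 q.1 q.2 ∧ ∃ x : Vt d n, (∀ j, |(x : Zd.Site d) j - (0 : Zd.Site d) j| ≤ r) ∧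
      y ∈ cluster (ends d n) (shut (ballEdges d n n 0 q.1)ᶜ w) x}
  have hsub : firstHits d n r n w ⊆ ⋃ q ∈ (Finset.univ : Finset _), H q := by
    rintro y ⟨⟨i, hi⟩, x, hx, hc⟩
    have hy := Zd.mem_box.1 y.2
    refine Set.mem_iUnion₂.2 ⟨((i, decide (0 ≤ (y : Zd.Site d) i)),
      fun j => decide (0 ≤ (y : Zd.Site d) j)), mem_univ _, ?_, x, by simpa using hx, ?_⟩
    · simp only [piece, mem_filter, mem_univ, true_and, Pi.zero_apply, sub_zero]
      refine ⟨?_, fun j _ => ?_⟩
      · by_cases h0 : 0 ≤ (y : Zd.Site d) i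
        · rw [abs_of_nonneg h0] at hi; simpa [h0] using hi
        · rw [abs_of_neg (not_le.1 h0)] at hi; simpa [h0] using hi
      · have hj := abs_le.1 (hy j)
        by_cases h0 : 0 ≤ (y : Zd.Site d) j <;> simp [h0] <;> omega
    · refine cluster_mono (fun e => ?_) x hc
      by_cases he : e ∈ coreEdges d n n
      · simp [shut, he, coreEdges_subset n _ he]
      · simp [shut, he]
  refine (Set.ncard_le_ncard hsub (Set.toFinite _)).trans
    ((Finset.set_ncard_biUnion_le _ _).trans ?_)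
  rw [← smul_eq_mul, ← Finset.card_univ]
  exact Finset.sum_le_card_nsmul _ _ _ fun q _ => (not_le.1 (h q)).le

/-! ### Symmetry -/

theorem manyHits_symm (p : ℝ) (hp : p ∈ Set.Icc (0 : ℝ) 1) (r n M : ℕ) (k k' : Fin d × Bool)
    (σ σ' : Fin d → Bool) :
    Pr (fun _ : Ed d n => p) (manyHits d n r n M 0 k σ)
      ≤ Pr (fun _ : Ed d n => p) (manyHits d n r n M 0 k' σ') := by
  classical
  set π : Equiv.Perm (Fin d) := Equiv.swap k.1 k'.1 with hπ
  set s : Fin d → Bool := fun j => if j = k'.1 then (k'.2 == k.2) else (σ' j == σ (π j)) with hs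
  have hsgn : ∀ (a b : Bool) (z : ℤ), sgn (a == b) * z * sgn a = z * sgn b := by
    intro a b z; cases a <;> cases b <;> simp [sgn]
  have hπk : π k'.1 = k.1 := Equiv.swap_apply_right _ _
  have hk : ∀ x : Zd.Site d, sp π s x k'.1 * sgn k'.2 = x k.1 * sgn k.2 := fun x => by
    simp only [sp, hπk, hs, if_pos, hsgn]
  have hj : ∀ x : Zd.Site d, ∀ j, j ≠ k'.1 →
      sp π s x j * sgn (σ' j) = x (π j) * sgn (σ (π j)) := fun x j hne => by
    simp only [sp, hs, if_neg hne, hsgn]
  rw [← Pr_const_comap p (spE_bijective (N := n) π s) (manyHits d n r n M 0 k σ)]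
  refine Pr_mono (fun _ => hp) fun w hw => ?_
  simp only [manyHits, Set.mem_ofPred_eq] at hw ⊢
  refine le_trans hw ?_
  refine Set.ncard_le_ncard_of_injOn (spV π s) ?_
    (fun a _ b _ h => Subtype.ext (sp_injective π s (congrArg Subtype.val h))) (Set.toFinite _)
  rintro y ⟨hy, x, hx, hc⟩
  refine ⟨?_, spV π s x, fun j => ?_, ?_⟩
  · simp only [piece, mem_filter, mem_univ, true_and, Pi.zero_apply, sub_zero] at hy ⊢
    refine ⟨(hk _).trans hy.1, fun j hne => ?_⟩
    have hne' : π j ≠ k.1 := fun h => hne (π.injective (h.trans hπk.symm))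
    show 0 ≤ sp π s _ j * sgn (σ' j) ∧ sp π s _ j * sgn (σ' j) ≤ _
    rw [hj _ j hne]
    exact hy.2 (π j) hne'
  · have h1 := hx (π j)
    simp only [Pi.zero_apply, sub_zero] at h1 ⊢
    exact le_trans (le_of_eq (abs_sp π s _ j)) h1
  · refine spV_cluster π s (cluster_mono (fun e => ?_) x hc)
    by_cases he : e ∈ ballEdges d n n 0 k
    · have he' : spE π s e ∈ ballEdges d n n 0 k' := by
        constructor
        · rw [mem_inside_iff]
          intro z hz
          rw [pair_spE, Sym2.mem_map] at hz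
          obtain ⟨u, hu, rfl⟩ := hz
          intro j
          have h1 := (mem_inside_iff.1 he.1) u hu (π j)
          simp only [Pi.zero_apply, sub_zero] at h1 ⊢
          exact le_trans (le_of_eq (abs_sp π s u j)) h1
        · intro hF
          refine he.2 (mem_inside_iff.2 fun u hu => ?_)
          have h1 := (mem_inside_iff.1 hF) (sp π s u)
            (by rw [pair_spE, Sym2.mem_map]; exact ⟨u, hu, rfl⟩)
          simp only [Pi.zero_apply, sub_zero] at h1 ⊢
          exact (hk u).symm.trans h1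
      simp [shut, he, he']
    · simp [shut, he]

/-! ### Few hits are cut off at bounded cost -/

/-- Some vertex of the box of radius `r` leaves the box of radius `n`. -/
def escape (d r n : ℕ) : Set (Config (Zd.zd d)) :=
  ⋃ x ∈ Zd.box d r, Zd.arm (Zd.zd d) ↑(Zd.box d n) x

theorem not_escape_of_cut {r n : ℕ} (hr : r ≤ n) (ω : Config (Zd.zd d))
    (hcut : ∀ y ∈ firstHits d n r n (windowConf d n ω), ∀ e : Ed d (n + 1),
      e ∉ upE '' coreEdges d n n → (y : Zd.Site d) ∈ pair e → windowConf d (n + 1) ω e = false) :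
    ω ∉ escape d r n := by
  intro hesc
  simp only [escape, Set.mem_iUnion, Zd.arm, Set.mem_ofPred_eq] at hesc
  obtain ⟨x, hx, z, hz, ⟨walk⟩⟩ := hesc
  set w := shut (coreEdges d n n)ᶜ (windowConf d n ω) with hw
  have key : ∀ {u v : Zd.Site d} (wk : (openGraph (Zd.zd d) ω).Walk u v)
      (x0 : Vt d n) (_ : ∀ j, |(x0 : Zd.Site d) j| ≤ (r : ℤ)) (u' : Vt d n)
      (_ : (u' : Zd.Site d) = u) (_ : u' ∈ cluster (ends d n) w x0), v ∈ Zd.box d n := by
    intro u v wk
    induction wk with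
    | nil => intro x0 _ u' hu _; exact hu ▸ u'.2
    | @cons a b c hab _ ih =>
      intro x0 hx0 u' hu hc
      obtain ⟨hadj, hopen⟩ := hab
      obtain ⟨dir, hdir⟩ := ((Zd.step_labelling d).adj a b).1 hadj
      have hdir' : b = a + Zd.unit dir := hdir.symm
      have ha : a ∈ Zd.box d n := hu ▸ u'.2
      have hstep : ∀ i, |b i| ≤ |a i| + 1 := fun i => by
        rw [hdir', Pi.add_apply]
        exact (abs_add_le _ _).trans (by linarith [abs_unit_le dir i])
      have hb1 : b ∈ Zd.box d (n + 1) := Zd.mem_box.2 fun i => by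
        push_cast; linarith [Zd.mem_box.1 ha i, hstep i]
      obtain ⟨e1, he1⟩ := exists_edge (Zd.box_mono d (Nat.le_succ n) ha) hb1 hdir'
      have hte1 : windowConf d (n + 1) ω e1 = true := by
        show ω (toEdge d (n + 1) e1) = true
        have : toEdge d (n + 1) e1 = ⟨s(a, b), hadj⟩ := Subtype.ext he1
        rw [this]; exact hopen
      by_cases hcore : e1 ∈ upE '' coreEdges d n n
      · obtain ⟨e0, he0, rfl⟩ := hcore
        rw [pair_upE] at he1
        have hbn : b ∈ Zd.box d n := Zd.mem_box.2 fun i =>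
          (mem_inside_iff.1 he0.1) b (he1 ▸ Sym2.mem_mk_right a b) i
        refine ih x0 hx0 ⟨b, hbn⟩ rfl (Relation.ReflTransGen.tail hc
          (openAdj_iff.2 ⟨e0, ?_, by rw [he1, hu]⟩))
        have hte0 : windowConf d n ω e0 = true := hte1
        simp [hw, shut, he0, hte0]
      · exfalso
        have hsph : OnSphere n a := by
          by_contra hno
          refine hcore ?_
          have hbn : b ∈ Zd.box d n := Zd.mem_box.2 fun i => by
            have h1 := Zd.mem_box.1 ha i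
            have h2 : |a i| ≠ (n : ℤ) := fun h => hno ⟨i, h⟩
            have := hstep i
            omega
          obtain ⟨e0, he0⟩ := exists_edge ha hbn hdir'
          refine ⟨e0, ⟨mem_inside_iff.2 fun q hq => ?_, ?_⟩,
            pair_injective (by rw [pair_upE, he0, he1])⟩
          · rw [he0, Sym2.mem_iff] at hq
            rcases hq with rfl | rfl
            · exact Zd.mem_box.1 ha
            · exact Zd.mem_box.1 hbn
          · simp only [Set.mem_iUnion, not_exists]
            intro k hk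
            have := (mem_inside_iff.1 hk) a (he0 ▸ Sym2.mem_mk_left a b)
            refine hno ⟨k.1, ?_⟩
            cases hkb : k.2 <;> simp [hkb] at this
            · rw [← abs_neg, this]; exact abs_of_nonneg (by omega)
            · rw [this]; exact abs_of_nonneg (by omega)
        have hmem : u' ∈ firstHits d n r n (windowConf d n ω) := ⟨hu ▸ hsph, x0, hx0, hc⟩
        have := hcut u' hmem e1 hcore (by rw [he1, hu]; exact Sym2.mem_mk_left a b)
        rw [hte1] at this
        exact Bool.noConfusion this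
  exact hz (key walk ⟨x, Zd.box_mono d hr hx⟩ (Zd.mem_box.1 hx) _ rfl (mem_cluster_self _ _))

theorem escape_subset_hits {r n : ℕ} (hr : r ≤ n) (ω : Config (Zd.zd d)) (h : ω ∈ escape d r n) :
    (firstHits d n r n (windowConf d n ω)).Nonempty := by
  by_contra hne
  rw [Set.not_nonempty_iff_eq_empty] at hne
  exact not_escape_of_cut hr ω (fun y hy => by simp [hne] at hy) h

theorem hits_subset_escape {r n : ℕ} (ω : Config (Zd.zd d))
    (h : (firstHits d (n + 1) r (n + 1) (windowConf d (n + 1) ω)).Nonempty) : ω ∈ escape d r n := by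
  obtain ⟨y, ⟨i, hi⟩, x, hx, hc⟩ := h
  simp only [escape, Set.mem_iUnion, Zd.arm, Set.mem_ofPred_eq]
  refine ⟨x, Zd.mem_box.2 hx, y, fun hy => ?_,
    reachable_of_cluster (cluster_mono (fun e => ?_) x hc)⟩
  swap
  · by_cases he : e ∈ (coreEdges d (n + 1) (n + 1))ᶜ <;> simp [shut, he]
  have := Zd.mem_box.1 (mem_coe.1 hy) i
  rw [hi] at this
  push_cast at this
  linarith

theorem escape_anti (r : ℕ) {m n : ℕ} (h : m ≤ n) : escape d r n ⊆ escape d r m := by
  intro ω hω
  simp only [escape, Set.mem_iUnion, Zd.arm, Set.mem_ofPred_eq] at hω ⊢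
  obtain ⟨x, hx, z, hz, hr⟩ := hω
  exact ⟨x, hx, z, fun hz' => hz (Zd.box_mono d h hz'), hr⟩

theorem infAt_subset_escape (r n : ℕ) :
    (⋃ x ∈ Zd.box d r, infAt (Zd.zd d) x) ⊆ escape d r n := by
  intro ω hω
  simp only [escape, Set.mem_iUnion, Zd.arm, Set.mem_ofPred_eq] at hω ⊢
  obtain ⟨x, hx, hinf⟩ := hω
  obtain ⟨z, hz, hzn⟩ := hinf.exists_notMem_finset (Zd.box d n)
  exact ⟨x, hx, z, fun h => hzn (mem_coe.1 h), hz⟩

/-- The edges that cut a set of hits off. -/
noncomputable def cutSet (m : ℕ) (S : Finset (Vt d m)) : Finset (Ed d (m + 1)) := by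
  classical exact Finset.univ.filter fun e =>
    e ∉ upE '' coreEdges d m m ∧ ∃ y ∈ S, (y : Zd.Site d) ∈ pair e

theorem cutSet_card (m : ℕ) (S : Finset (Vt d m)) : (cutSet m S).card ≤ 2 * d * S.card := by
  classical
  have hex : ∀ e ∈ cutSet m S, ∃ q ∈ S ×ˢ (Finset.univ : Finset (Fin d × Bool)),
      pair e = s((q.1 : Zd.Site d), (q.1 : Zd.Site d) + Zd.unit q.2) := by
    intro e he
    simp only [cutSet, mem_filter, mem_univ, true_and] at he
    obtain ⟨-, y, hy, hmem⟩ := he
    obtain ⟨z, hz⟩ := Sym2.mem_iff_exists.1 hmem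
    have hadj : (Zd.zd d).Adj (y : Zd.Site d) z := by
      have := toEdge_mem e
      rwa [hz, SimpleGraph.mem_edgeSet] at this
    obtain ⟨a, ha⟩ := ((Zd.step_labelling d).adj _ _).1 hadj
    exact ⟨(y, a), mem_product.2 ⟨hy, mem_univ _⟩, by rw [hz, ← ha]; rfl⟩
  have hsub : (cutSet m S).image pair ⊆ (S ×ˢ (Finset.univ : Finset (Fin d × Bool))).image
      fun q => s((q.1 : Zd.Site d), (q.1 : Zd.Site d) + Zd.unit q.2) := by
    intro z hz
    obtain ⟨e, he, rfl⟩ := mem_image.1 hz
    obtain ⟨q, hq, hpq⟩ := hex e he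
    exact mem_image.2 ⟨q, hq, hpq.symm⟩
  rw [← card_image_of_injective (cutSet m S) pair_injective]
  refine ((card_le_card hsub).trans card_image_le).trans ?_
  rw [card_product, card_univ, Fintype.card_prod, Fintype.card_fin, Fintype.card_bool]
  exact le_of_eq (by ring)

theorem cut_bound (p : unitInterval) {r n : ℕ} (hr : r ≤ n) (L : ℕ) :
    (1 - (p : ℝ)) ^ (2 * d * L) * Pr (fun _ : Ed d (n + 1) => (p : ℝ))
        {w | (firstHits d (n + 1) r (n + 1) w).Nonempty ∧ (firstHits d (n + 1) r (n + 1) w).ncard ≤ L}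
      ≤ (perc (Zd.zd d) p).real (escape d r n) - (perc (Zd.zd d) p).real (escape d r (n + 1)) := by
  classical
  set m := n + 1
  set μ := perc (Zd.zd d) p
  set q : Ed d (m + 1) → ℝ := fun _ => (p : ℝ) with hq
  have hq01 : ∀ e, q e ∈ Set.Icc (0 : ℝ) 1 := fun _ => ⟨p.2.1, p.2.2⟩
  have h0 : 0 ≤ 1 - (p : ℝ) := sub_nonneg.2 p.2.2
  set fam := (Finset.univ : Finset (Finset (Vt d m))).filter fun S => S.Nonempty ∧ S.card ≤ L
    with hfam
  set T : Finset (Vt d m) → Set (Ed d (m + 1) → Bool) := fun S =>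
    {w | firstHits d m r m (w ∘ upE) = ↑S} with hT
  set A : Finset (Vt d m) → Set (Ed d (m + 1) → Bool) := fun S =>
    T S ∩ {w | ∀ e ∈ cutSet m S, w e = false} with hA
  set U : Set (Ed d (m + 1) → Bool) := {w | ∃ S ∈ fam, w ∈ A S} with hU
  have hsumA : ∑ S ∈ fam, Pr q (A S) ≤ Pr q U :=
    Pr_disjoint_sum_le hq01 fam A U (fun S hS w hw => ⟨S, hS, hw⟩)
      fun S _ S' _ w hw hw' => Finset.coe_injective (hw.1.symm.trans hw'.1)
  have hAval : ∀ S ∈ fam, (1 - (p : ℝ)) ^ (2 * d * L) * Pr q (T S) ≤ Pr q (A S) := by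
    intro S hS
    have hindep : Pr q (A S) = Pr q (T S) * Pr q {w | ∀ e ∈ cutSet m S, w e = false} := by
      refine Pr_inter_indep (R := upE '' coreEdges d m m) (R' := ↑(cutSet m S)) ?_ ?_ ?_
      · rw [Set.disjoint_right]
        intro e he
        simp only [cutSet, coe_filter, mem_univ, true_and] at he
        exact he.1
      · intro w w' h
        exact firstHits_local d m r m (fun X => X = ↑S) (w ∘ upE) (w' ∘ upE) fun e he =>
          h _ ⟨e, he, rfl⟩
      · intro w w' h
        exact forall₂_congr fun e he => by rw [h e (mem_coe.2 he)]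
    rw [hindep, Pr_closed, mul_comm]
    refine mul_le_mul_of_nonneg_left ?_ (Pr_nonneg hq01 _)
    simp only [hq, Finset.prod_const]
    refine pow_le_pow_of_le_one h0 (by linarith [p.2.1]) ((cutSet_card m S).trans ?_)
    exact Nat.mul_le_mul le_rfl (mem_filter.1 hS).2.2
  have hT' : Pr q {w | (firstHits d m r m (w ∘ upE)).Nonempty ∧
      (firstHits d m r m (w ∘ upE)).ncard ≤ L} ≤ ∑ S ∈ fam, Pr q (T S) := by
    refine le_trans (Pr_mono hq01 ?_) (Pr_biUnion_le hq01 fam T)
    rintro w ⟨hne, hle⟩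
    refine Set.mem_iUnion₂.2 ⟨(firstHits d m r m (w ∘ upE)).toFinite.toFinset, ?_, ?_⟩
    · refine mem_filter.2 ⟨mem_univ _, by simpa using hne, ?_⟩
      rwa [← Set.ncard_eq_toFinset_card]
    · simp [hT]
  have hstep : (1 - (p : ℝ)) ^ (2 * d * L) * Pr q {w | (firstHits d m r m (w ∘ upE)).Nonempty ∧
      (firstHits d m r m (w ∘ upE)).ncard ≤ L} ≤ Pr q U :=
    calc _ ≤ (1 - (p : ℝ)) ^ (2 * d * L) * ∑ S ∈ fam, Pr q (T S) :=
          mul_le_mul_of_nonneg_left hT' (pow_nonneg h0 _)
      _ ≤ ∑ S ∈ fam, Pr q (A S) := by rw [mul_sum]; exact sum_le_sum hAval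
      _ ≤ _ := hsumA
  have hdown : Pr (fun _ : Ed d m => (p : ℝ))
      {w | (firstHits d m r m w).Nonempty ∧ (firstHits d m r m w).ncard ≤ L}
      = Pr q {w | (firstHits d m r m (w ∘ upE)).Nonempty ∧
          (firstHits d m r m (w ∘ upE)).ncard ≤ L} := by
    rw [hq, ← perc_windowEv p, ← perc_windowEv p]
    rfl
  rw [hdown]
  refine le_trans hstep ?_
  rw [hq, ← perc_windowEv p]
  set B := windowEv d (m + 1) U with hB
  have hsub : B ⊆ escape d r n \ escape d r m := by
    rintro ω ⟨S, hS, hTS, hclosed⟩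
    have hS' : firstHits d m r m (windowConf d m ω) = ↑S := hTS
    refine ⟨hits_subset_escape ω (hS' ▸ (mem_filter.1 hS).2.1.to_set), ?_⟩
    refine not_escape_of_cut (Nat.le_succ_of_le hr) ω fun y hy e he hmem => ?_
    rw [hS', mem_coe] at hy
    exact hclosed e (by simp only [cutSet, mem_filter, mem_univ, true_and]; exact ⟨he, y, hy, hmem⟩)
  have hdisj : Disjoint (escape d r m) B := Set.disjoint_right.2 fun ω hω => (hsub hω).2
  have h1 : μ.real (escape d r m ∪ B) = μ.real (escape d r m) + μ.real B :=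
    measureReal_union hdisj (measurableSet_windowEv _)
  have h2 : μ.real (escape d r m ∪ B) ≤ μ.real (escape d r n) :=
    measureReal_mono (Set.union_subset (escape_anti r (Nat.le_succ n)) fun ω hω => (hsub hω).1)
      (measure_ne_top μ _)
  linarith

/-- Many first hits, with probability close to one. -/
theorem many_firstHits (p : unitInterval) (h1 : (p : ℝ) < 1)
    (hθ : 0 < perc (Zd.zd d) p (infAt (Zd.zd d) 0)) {η : ℝ} (hη : 0 < η) :
    ∃ r, 1 ≤ r ∧ ∀ L, ∃ n0, ∀ n, n0 ≤ n →
      Pr (fun _ : Ed d n => (p : ℝ)) {w | (firstHits d n r n w).ncard ≤ L} ≤ η := by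
  classical
  obtain ⟨r0, hr0⟩ := Zd.zd_box_hits d p hθ (half_pos hη)
  refine ⟨max r0 1, le_max_right _ _, fun L => ?_⟩
  set r := max r0 1
  set μ := perc (Zd.zd d) p
  set g : ℕ → ℝ := fun n => μ.real (escape d r n) with hg
  have hga : Antitone g := fun a b hab =>
    measureReal_mono (escape_anti r hab) (measure_ne_top μ _)
  have hlim := tendsto_atTop_ciInf hga ⟨0, by rintro _ ⟨n, rfl⟩; exact measureReal_nonneg⟩
  have hdiff : Tendsto (fun n => g n - g (n + 1)) atTop (𝓝 0) := by
    have := hlim.sub (hlim.comp (tendsto_add_atTop_nat 1))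
    simpa using this
  have hc : 0 < (1 - (p : ℝ)) ^ (2 * d * L) := pow_pos (sub_pos.2 h1) _
  obtain ⟨n1, hn1⟩ := eventually_atTop.1
    (hdiff.eventually (eventually_le_nhds (mul_pos hc (half_pos hη))))
  refine ⟨max n1 r + 1, fun n hn => ?_⟩
  obtain ⟨k, rfl⟩ : ∃ k, n = k + 1 := ⟨n - 1, by omega⟩
  have hkr : r ≤ k := le_trans (le_max_right n1 r) (by omega)
  have hk1 : n1 ≤ k := le_trans (le_max_left n1 r) (by omega)
  have hp01 : ∀ _e : Ed d (k + 1), (p : ℝ) ∈ Set.Icc (0 : ℝ) 1 := fun _ => ⟨p.2.1, p.2.2⟩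
  have hfew := le_of_mul_le_mul_left ((cut_bound p hkr L).trans (hn1 k hk1)) hc
  have hne : Pr (fun _ : Ed d (k + 1) => (p : ℝ))
      {w | (firstHits d (k + 1) r (k + 1) w).Nonempty}ᶜ ≤ η / 2 := by
    rw [Pr_compl, ← perc_windowEv p]
    have h2 : μ.real (⋃ x ∈ Zd.box d r, infAt (Zd.zd d) x) ≤ μ.real
        (windowEv d (k + 1) {w | (firstHits d (k + 1) r (k + 1) w).Nonempty}) :=
      measureReal_mono (fun ω hω => escape_subset_hits (by omega) ω
        (infAt_subset_escape r (k + 1) hω)) (measure_ne_top μ _)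
    have h3 := hr0 r (le_max_left _ _)
    linarith
  refine le_trans (Pr_mono hp01 (B := {w | (firstHits d (k + 1) r (k + 1) w).Nonempty}ᶜ ∪
    {w | (firstHits d (k + 1) r (k + 1) w).Nonempty ∧ (firstHits d (k + 1) r (k + 1) w).ncard ≤ L})
    fun w hw => ?_) ((Pr_union_le hp01 _ _).trans (by linarith))
  by_cases h : (firstHits d (k + 1) r (k + 1) w).Nonempty
  · exact Or.inr ⟨h, hw⟩
  · exact Or.inl h

/-- Percolation gives the finite criterion at every large scale. -/
theorem crit_of_infAt (d : ℕ) (p : unitInterval) (h0 : 0 < (p : ℝ)) (h1 : (p : ℝ) < 1)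
    (hθ : 0 < perc (Zd.zd (d + 2)) p (infAt (Zd.zd (d + 2)) 0)) :
    ∀ ε > (0 : ℝ), ∃ r, 1 ≤ r ∧ ∀ M, ∃ n0, ∀ n, n0 ≤ n → Crit (d + 2) p r n M ε := by
  intro ε hε
  set m := Fintype.card ((Fin (d + 2) × Bool) × (Fin (d + 2) → Bool)) with hm
  have hm0 : m ≠ 0 := Fintype.card_ne_zero
  obtain ⟨r, hr, hL⟩ := many_firstHits p h1 hθ (pow_pos hε m)
  refine ⟨r, hr, fun M => ?_⟩
  obtain ⟨n0, hn0⟩ := hL (m * M)
  refine ⟨n0, fun n hn k σ => ?_⟩
  have hp01 : ∀ _e : Ed (d + 2) n, (p : ℝ) ∈ Set.Icc (0 : ℝ) 1 := fun _ => ⟨h0.le, h1.le⟩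
  set a := Pr (fun _ : Ed (d + 2) n => (p : ℝ)) (manyHits (d + 2) n r n M 0 k σ) with ha
  have hprod := Pr_none_ge hp01 Finset.univ
    (fun q : (Fin (d + 2) × Bool) × (Fin (d + 2) → Bool) =>
      manyHits (d + 2) n r n M 0 q.1 q.2) fun q _ => manyHits_upper r n M 0 q.1 q.2
  have hlow : (1 - a) ^ m ≤ ε ^ m := by
    refine le_trans ?_ ((hprod.trans (Pr_mono hp01 fun w hw =>
      firstHits_ncard_le n r M fun q => hw q (mem_univ q))).trans (hn0 n hn))
    rw [hm, ← Finset.card_univ, ← Finset.prod_const]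
    refine Finset.prod_le_prod (fun _ _ => sub_nonneg.2 (Pr_le_one hp01 _)) fun q _ => ?_
    have := manyHits_symm (p : ℝ) ⟨h0.le, h1.le⟩ r n M q.1 k q.2 σ
    linarith
  have := (pow_le_pow_iff_left₀ (sub_nonneg.2 (Pr_le_one hp01 _)) hε.le hm0).1 hlow
  linarith

end Vale.Agent.P151.Renorm
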