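import Vale.Agent.P151.Renorm.Defs

/-!
# The next level of the renormalisation

A position of the next level is hit if two positions of the present level are hit, the second
one without the edges that the lanes starting at the first one may use. Two disjoint lanes lead
to two versions of the target, so the failure probability of a step is squared.
-/

namespace Vale.Agent.P151.Renorm

open Glue0

variable {d N r A B : ℕ} {p ε : ℝ} {a : Vt (d + 2) N}

/-- The path of a lane: towards `z` until time `96`, then away in the direction `σ`. -/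
def lanePath (x z σ : ℤ) (k : ℕ) : ℤ :=
  if k ≤ 96 then x + max (-(k : ℤ)) (min (k : ℤ) (z - x)) else z + σ * ((k : ℤ) - 96)

/-- The edges that a lane may use. -/
def laneEdges (d N A B r : ℕ) (t x z : ℤ) : Set (Ed (d + 2) N) :=
  {e | ∃ k : ℕ, k < 100 ∧ ∃ σ : ℤ, (σ = -1 ∨ σ = 1) ∧
    e ∈ region d N A B r (t + k) (lanePath x z σ k)
      (lanePath x z σ (k + 1) - lanePath x z σ k)}

/-- The edges reserved at a position of the next level. -/
def reserved (d N A B r : ℕ) (t s v : ℤ) : Set (Ed (d + 2) N) :=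
  {e | ∃ δ : ℤ, |δ| ≤ 1 ∧
    e ∈ laneEdges d N A B r (100 * t) (64 * s + 12 * v - 4) (64 * (s + δ) - 12)}

theorem lanePath_step {x z σ : ℤ} (hσ : σ = -1 ∨ σ = 1) (hD : |z - x| ≤ 96) (k : ℕ) :
    |lanePath x z σ (k + 1) - lanePath x z σ k| ≤ 1 := by
  rw [abs_le] at hD ⊢
  unfold lanePath
  rcases hσ with h | h <;> subst h <;> split_ifs <;> push_cast <;> omega

theorem lanePath_end {x z σ : ℤ} (hD : |z - x| ≤ 96) : lanePath x z σ 96 = z := by
  rw [abs_le] at hD
  unfold lanePath
  rw [if_pos le_rfl]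
  omega

theorem lanePath_hundred (x z σ : ℤ) : lanePath x z σ 100 = z + σ * 4 := by
  simp [lanePath]

theorem lanePath_congr {x z σ σ' : ℤ} {k : ℕ} (hk : k ≤ 96) :
    lanePath x z σ k = lanePath x z σ' k := by
  simp [lanePath, hk]

/-- An edge inside two regions gives a common point. -/
theorem region_common {t s δ t' s' δ' : ℤ} {e : Ed (d + 2) N}
    (h : e ∈ region d N A B r t s δ) (h' : e ∈ region d N A B r t' s' δ') :
    (A : ℤ) * (t - 1) ≤ A * (t' + 1) + r ∧ (A : ℤ) * (t' - 1) ≤ A * (t + 1) + r ∧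
      (B : ℤ) * (min s (s + δ) - 1) ≤ B * (max s' (s' + δ') + 1) ∧
      (B : ℤ) * (min s' (s' + δ') - 1) ≤ B * (max s (s + δ) + 1) := by
  obtain ⟨⟨a1, a2, a3, a4⟩, -⟩ := h
  obtain ⟨⟨b1, b2, b3, b4⟩, -⟩ := h'
  exact ⟨a1.trans b2, b1.trans a2, a3.trans b4, b3.trans a4⟩

theorem time_le (hr : r < A) {u u' : ℤ} (h : (A : ℤ) * u ≤ A * u' + r) : u ≤ u' := by
  by_contra hc
  have h1 : (A : ℤ) * (u' + 1) ≤ A * u := mul_le_mul_of_nonneg_left (by omega) (by omega)
  have h2 : (r : ℤ) < A := by exact_mod_cast hr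
  linarith [mul_add (A : ℤ) u' 1]

theorem lateral_le (hB : 1 ≤ B) {u u' : ℤ} (h : (B : ℤ) * u ≤ B * u') : u ≤ u' :=
  le_of_mul_le_mul_left h (by exact_mod_cast hB)

theorem lanePath_bounds {x z σ : ℤ} (hσ : σ = -1 ∨ σ = 1) (hD : |z - x| ≤ 96) {k : ℕ}
    (hk : k < 100) :
    max (lanePath x z σ k) (lanePath x z σ (k + 1)) ≤
        (if k ≤ 94 then x + max (-(k : ℤ)) (min (k : ℤ) (z - x)) + 1 else z + 5) ∧
      (if k ≤ 94 then x + max (-(k : ℤ)) (min (k : ℤ) (z - x)) - 1 else z - 5) ≤
        min (lanePath x z σ k) (lanePath x z σ (k + 1)) := by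
  rw [abs_le] at hD
  by_cases h : k ≤ 94
  · simp only [lanePath, show k ≤ 96 by omega, show k + 1 ≤ 96 by omega, h, if_true]
    constructor <;> push_cast <;> omega
  · simp only [h, if_false]
    unfold lanePath
    rcases hσ with hs | hs <;> subst hs <;> split_ifs <;> constructor <;> push_cast <;> omega

/-- Two lanes that start at distance `8` and whose targets are `24` apart are disjoint. -/
theorem lanes_disjoint (hr : r < A) (hB : 1 ≤ B) {t x z : ℤ} (hD : |z - x| ≤ 96)
    (hD' : |z + 24 - (x + 8)| ≤ 96) {e : Ed (d + 2) N} (h : e ∈ laneEdges d N A B r t x z) :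
    e ∉ laneEdges d N A B r t (x + 8) (z + 24) := by
  rintro ⟨k', hk', σ', hσ', he'⟩
  obtain ⟨k, hk, σ, hσ, he⟩ := h
  obtain ⟨h1, h2, -, h4⟩ := region_common he he'
  have h1 := time_le hr h1
  have h2 := time_le hr h2
  have h4 := lateral_le hB h4
  rw [add_sub_cancel, add_sub_cancel] at h4
  obtain ⟨g1, -⟩ := lanePath_bounds hσ hD hk
  obtain ⟨-, g2⟩ := lanePath_bounds hσ' hD' hk'
  rw [abs_le] at hD hD'
  split_ifs at g1 g2 <;> omega

/-- The regions of the steps of a lane lie in the region of the step of the next level. -/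
theorem laneEdges_subset {t s δ x z : ℤ} (hδ : |δ| ≤ 1) (hx : |x - 64 * s| ≤ 16)
    (hz : |z - 64 * (s + δ)| ≤ 12) :
    laneEdges d N A B r (100 * t) x z ⊆ region d N (100 * A) (64 * B) r t s δ := by
  rintro e ⟨k, hk, σ, hσ, he⟩
  rw [abs_le] at hδ hx hz
  have hA : (0 : ℤ) ≤ A := Int.natCast_nonneg A
  have hB : (0 : ℤ) ≤ B := Int.natCast_nonneg B
  have key : ∀ y : Zd.Site (d + 2),
      ((A : ℤ) * (100 * t + k - 1) ≤ y 0 ∧ y 0 ≤ A * (100 * t + k + 1) + r ∧
        (B : ℤ) * (min (lanePath x z σ k) (lanePath x z σ k +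
          (lanePath x z σ (k + 1) - lanePath x z σ k)) - 1) ≤ y 1 ∧
        y 1 ≤ B * (max (lanePath x z σ k) (lanePath x z σ k +
          (lanePath x z σ (k + 1) - lanePath x z σ k)) + 1)) →
      (100 * A : ℕ) * (t - 1) ≤ y 0 ∧ y 0 ≤ (100 * A : ℕ) * (t + 1) + r ∧
        ((64 * B : ℕ) : ℤ) * (min s (s + δ) - 1) ≤ y 1 ∧
        y 1 ≤ ((64 * B : ℕ) : ℤ) * (max s (s + δ) + 1) := by
    rintro y ⟨h1, h2, h3, h4⟩
    have g1 : (A : ℤ) * (100 * (t - 1)) ≤ A * (100 * t + k - 1) :=
      mul_le_mul_of_nonneg_left (by omega) hA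
    have g2 : (A : ℤ) * (100 * t + k + 1) ≤ A * (100 * (t + 1)) :=
      mul_le_mul_of_nonneg_left (by omega) hA
    have g3 : 64 * (min s (s + δ) - 1) ≤ min (lanePath x z σ k) (lanePath x z σ k +
        (lanePath x z σ (k + 1) - lanePath x z σ k)) - 1 := by
      rcases hσ with hs | hs <;> subst hs <;> unfold lanePath <;> split_ifs <;> push_cast <;>
        omega
    have g4 : max (lanePath x z σ k) (lanePath x z σ k +
        (lanePath x z σ (k + 1) - lanePath x z σ k)) + 1 ≤ 64 * (max s (s + δ) + 1) := by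
      rcases hσ with hs | hs <;> subst hs <;> unfold lanePath <;> split_ifs <;> push_cast <;>
        omega
    have g3' := mul_le_mul_of_nonneg_left g3 hB
    have g4' := mul_le_mul_of_nonneg_left g4 hB
    push_cast
    exact ⟨by linarith, by linarith, by linarith, by linarith⟩
  exact ⟨key _ he.1, key _ he.2⟩

theorem Pr_diff_le {q : Ed (d + 2) N → ℝ} (hq : ∀ e, q e ∈ Set.Icc (0 : ℝ) 1)
    (X Y Z : Set (Ed (d + 2) N → Bool)) : Pr q (X \ Z) ≤ Pr q (X \ Y) + Pr q (Y \ Z) :=
  (Pr_mono hq fun w hw => by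
    by_cases h : w ∈ Y
    · exact Or.inr ⟨h, hw.2⟩
    · exact Or.inl ⟨hw.1, h⟩).trans (Pr_union_le hq _ _)

/-- A chain of steps fails with at most the sum of their failure probabilities. -/
theorem chain_le (S : System d N p r A B ε a) {q : Ed (d + 2) N → ℝ}
    (hq : ∀ e, q e ∈ Set.Icc (0 : ℝ) 1) (t : ℤ) (f : ℕ → ℤ) (i k : ℕ)
    (h : ∀ j, i ≤ j → j < i + k → |f (j + 1) - f j| ≤ 1 ∧ Fits N A B (t + j) (f j) ∧
      Admissible A B r p (t + j) (f j) (f (j + 1) - f j) q) :
    Pr q (S.Hit (t + i) (f i) \ S.Hit (t + (i + k : ℕ)) (f (i + k))) ≤ k * ε := by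
  induction k with
  | zero => simp [Pr, Set.indicator_empty, Ev_const]
  | succ k ih =>
    obtain ⟨h1, h2, h3⟩ := h (i + k) (by omega) (by omega)
    have hs := S.step _ _ _ q h1 h2 h3
    rw [add_sub_cancel, add_assoc, ← Nat.cast_succ] at hs
    have ih := ih fun j hj hj' => h j hj (by omega)
    have hd := Pr_diff_le hq (S.Hit (t + i) (f i)) (S.Hit (t + (i + k : ℕ)) (f (i + k)))
      (S.Hit (t + (i + (k + 1) : ℕ)) (f (i + (k + 1))))
    push_cast [add_assoc] at hd hs ih ⊢
    linarith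

/-- A lane followed from its step `i` fails with probability at most `104 ε`. -/
theorem lane_le (S : System d N p r A B ε a) (hε : 0 ≤ ε) {q : Ed (d + 2) N → ℝ}
    (hq : ∀ e, q e ∈ Set.Icc (0 : ℝ) 1) {t x z : ℤ} (hD : |z - x| ≤ 96) {i : ℕ} (hi : i ≤ 96)
    (U : Set (Ed (d + 2) N))
    (hU : ∀ e ∈ U, e ∉ halfSpace (d + 2) N ((A : ℤ) * (t + 96) + r) ∧
      ∀ k : ℕ, 96 ≤ k → k < 100 → e ∉ region d N A B r (t + k) (lanePath x z 1 k)
        (lanePath x z 1 (k + 1) - lanePath x z 1 k))
    (hadm : ∀ k : ℕ, i ≤ k → k < 100 → ∀ σ : ℤ, (σ = -1 ∨ σ = 1) →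
      Fits N A B (t + k) (lanePath x z σ k) ∧ Admissible A B r p (t + k) (lanePath x z σ k)
        (lanePath x z σ (k + 1) - lanePath x z σ k) q) :
    Pr q (S.Hit (t + i) (lanePath x z (-1) i) \
      (S.Hit (t + 100) (z - 4) ∩ whenShut U (S.Hit (t + 100) (z + 4)))) ≤ 104 * ε := by
  have c1 := chain_le S hq t (lanePath x z (-1)) i (96 - i) fun j hj hj' =>
    ⟨lanePath_step (Or.inl rfl) hD j, hadm j hj (by omega) _ (Or.inl rfl)⟩
  rw [Nat.add_sub_cancel' hi, lanePath_end hD] at c1
  have c2 := chain_le S hq t (lanePath x z (-1)) 96 4 fun j hj hj' =>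
    ⟨lanePath_step (Or.inl rfl) hD j, hadm j (hi.trans hj) (by omega) _ (Or.inl rfl)⟩
  rw [lanePath_end hD] at c2
  have c3 := chain_le S (q := closeW U q) (closeW_mem hq U) t (lanePath x z 1) 96 4
    fun j hj hj' => by
      obtain ⟨hfit, -, h2⟩ := hadm j (hi.trans hj) (by omega) 1 (Or.inr rfl)
      refine ⟨lanePath_step (Or.inr rfl) hD j, hfit, closeW_mem hq U, fun e he => ?_⟩
      have heU : e ∉ U := fun h => (hU e h).2 j hj (by omega) he
      simpa [closeW, heU] using h2 e he
  rw [lanePath_end hD, Pr_closeW] at c3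
  simp only [Nat.reduceAdd, lanePath_hundred, Nat.cast_ofNat] at c1 c2 c3
  simp only [neg_mul, one_mul, ← sub_eq_add_neg] at c2 c3
  have hsame : whenShut U (S.Hit (t + 96) z) = S.Hit (t + 96) z := by
    ext w
    refine S.local_hit _ _ (shut U w) w fun e he => ?_
    have : e ∉ U := fun h => (hU e h).1 he
    simp [shut, this]
  have h3 : Pr q (S.Hit (t + 96) z \ whenShut U (S.Hit (t + 100) (z + 4))) ≤ 4 * ε := by
    refine le_trans (le_of_eq ?_) c3
    conv_lhs => rw [← hsame]
    rfl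
  have hd := Pr_diff_le hq (S.Hit (t + i) (lanePath x z (-1) i)) (S.Hit (t + 96) z)
    (S.Hit (t + 100) (z - 4) ∩ whenShut U (S.Hit (t + 100) (z + 4)))
  have hu : Pr q (S.Hit (t + 96) z \
      (S.Hit (t + 100) (z - 4) ∩ whenShut U (S.Hit (t + 100) (z + 4)))) ≤ 4 * ε + 4 * ε := by
    rw [Set.sdiff_inter]
    exact (Pr_union_le hq _ _).trans (add_le_add c2 h3)
  have hle : ((96 - i : ℕ) : ℝ) * ε ≤ 96 * ε := by
    gcongr
    exact_mod_cast Nat.sub_le 96 i
  linarith

/-- The edges reserved at the target avoid what precedes it. -/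
theorem reserved_avoid (hr : r < A) (hB : 1 ≤ B) {t s v x : ℤ} {t₀ : ℤ}
    (ht : t₀ + 100 = 100 * t) {e : Ed (d + 2) N} (he : e ∈ reserved d N A B r t s v) :
    e ∉ halfSpace (d + 2) N ((A : ℤ) * (t₀ + 96) + r) ∧
      ∀ k : ℕ, 96 ≤ k → k < 100 → e ∉ region d N A B r (t₀ + k) (lanePath x (64 * s + 12 * v) 1 k)
        (lanePath x (64 * s + 12 * v) 1 (k + 1) - lanePath x (64 * s + 12 * v) 1 k) := by
  obtain ⟨δ, -, k, hk, σ, hσ, he⟩ := he
  refine ⟨fun h => ?_, fun k' hk1 hk2 h => ?_⟩
  · have := time_le hr (he.1.1.trans h.1)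
    omega
  · obtain ⟨h1, h2, -, h4⟩ := region_common he h
    have h1 := time_le hr h1
    have h4 := lateral_le hB h4
    have hk' : k ≤ 1 := by omega
    rcases hσ with hs | hs <;> subst hs <;>
      simp only [lanePath, show k ≤ 96 by omega, show k + 1 ≤ 96 by omega, if_true] at h4 <;>
      split_ifs at h4 <;> push_cast at h1 h4 <;> omega

/-- A version of a position of the next level. -/
def version (S : System d N p r A B ε a) (t s v : ℤ) : Set (Ed (d + 2) N → Bool) :=
  S.Hit (100 * t) (64 * s + 12 * v - 4) ∩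
    whenShut (reserved d N A B r t s v) (S.Hit (100 * t) (64 * s + 12 * v + 4))

theorem version_upper (S : System d N p r A B ε a) (t s v : ℤ) :
    IsUpperSet (version S t s v) := fun w w' h hw => by
  refine ⟨S.mono _ _ h hw.1, S.mono _ _ (fun e => ?_) hw.2⟩
  by_cases he : e ∈ reserved d N A B r t s v
  · simp [shut, he]
  · simpa [shut, he] using h e

theorem version_local (S : System d N p r A B ε a) (t s v : ℤ) :
    LocalEv (halfSpace (d + 2) N ((100 * A : ℕ) * t + r)) (version S t s v) := by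
  have hX : ((100 * A : ℕ) : ℤ) * t + r = (A : ℤ) * (100 * t) + r := by push_cast; ring
  rw [hX]
  intro w w' h
  refine and_congr (S.local_hit _ _ w w' h) (S.local_hit _ _ _ _ fun e he => ?_)
  by_cases hu : e ∈ reserved d N A B r t s v
  · simp [shut, hu]
  · simp [shut, hu, h e he]

/-- Both lanes fail. -/
theorem version_step (hr : r < A) (hB : 1 ≤ B) (hε : 0 ≤ ε) (S : System d N p r A B ε a)
    {t s δ v : ℤ} (hv : v = -1 ∨ v = 1) (hδ : |δ| ≤ 1) (hfit : Fits N (100 * A) (64 * B) t s)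
    {q : Ed (d + 2) N → ℝ} (hq : Admissible (100 * A) (64 * B) r p t s δ q) :
    Pr q (version S t s v \
      (version S (t + 1) (s + δ) (-1) ∪ version S (t + 1) (s + δ) 1)) ≤
      (104 * ε) ^ 2 := by
  obtain ⟨x, hx⟩ : ∃ x, x = 64 * s + 12 * v - 4 := ⟨_, rfl⟩
  have hδ' := abs_le.1 hδ
  have hD : |64 * (s + δ) + 12 * (-1) - x| ≤ 96 := by
    rw [abs_le]; rcases hv with h | h <;> subst h <;> omega
  have hD' : |64 * (s + δ) + 12 * 1 - (x + 8)| ≤ 96 := by
    rw [abs_le]; rcases hv with h | h <;> subst h <;> omega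
  -- a lane succeeds whatever happens outside its regions
  have lane : ∀ (w : ℤ) (y : ℤ) (q' : Ed (d + 2) N → ℝ), |64 * (s + δ) + 12 * w - y| ≤ 96 →
      |y - 64 * s| ≤ 16 → (w = -1 ∨ w = 1) → (∀ e, q' e ∈ Set.Icc (0 : ℝ) 1) →
      (∀ e ∈ laneEdges d N A B r (100 * t) y (64 * (s + δ) + 12 * w), q' e = q e) →
      Pr q' (S.Hit (100 * t) y \ version S (t + 1) (s + δ) w) ≤ 104 * ε := by
    intro w y q' hw hy hw1 hq' heq
    have h := lane_le S hε hq' hw (t := 100 * t) (i := 0) (by omega)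
      (reserved d N A B r (t + 1) (s + δ) w)
      (fun e he => reserved_avoid hr hB (by ring) he) ?_
    · have h0 : lanePath y (64 * (s + δ) + 12 * w) (-1) 0 = y := by simp [lanePath]
      have ht : (100 * t + 100 : ℤ) = 100 * (t + 1) := by ring
      rw [h0, Nat.cast_zero, add_zero, ht] at h
      exact h
    · intro k _ hk σ hσ
      have hsub : region d N A B r (100 * t + k) (lanePath y (64 * (s + δ) + 12 * w) σ k)
          (lanePath y (64 * (s + δ) + 12 * w) σ (k + 1) -
            lanePath y (64 * (s + δ) + 12 * w) σ k) ⊆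
          laneEdges d N A B r (100 * t) y (64 * (s + δ) + 12 * w) :=
        fun e he => ⟨k, hk, σ, hσ, he⟩
      have hbig := laneEdges_subset (d := d) (N := N) (A := A) (B := B) (r := r) (t := t) hδ hy
        (show |64 * (s + δ) + 12 * w - 64 * (s + δ)| ≤ 12 by
          rcases hw1 with h | h <;> subst h <;> simp)
      refine ⟨⟨?_, ?_⟩, hq', fun e he => ?_⟩
      · have h1 := hfit.1
        push_cast at h1
        have : |100 * t + (k : ℤ)| + 2 ≤ 100 * (|t| + 2) := by
          rcases abs_cases t with h | h <;> rcases abs_cases (100 * t + (k : ℤ)) with h' | h' <;>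
            omega
        linarith [mul_le_mul_of_nonneg_left this (Int.natCast_nonneg A)]
      · have h1 := hfit.2
        push_cast at h1
        have : |lanePath y (64 * (s + δ) + 12 * w) σ k| + 2 ≤ 64 * (|s| + 2) := by
          rw [abs_le] at hy
          have hs1 := le_abs_self s
          have hs2 := neg_le_abs s
          rw [← le_sub_iff_add_le, abs_le]
          unfold lanePath
          rcases hσ with h | h <;> subst h <;> rcases hw1 with h | h <;> subst h <;>
            split_ifs <;> omega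
        linarith [mul_le_mul_of_nonneg_left this (Int.natCast_nonneg B)]
      · rw [heq e (hsub he)]
        refine ⟨(hq.2 e (hbig (hsub he))).1, fun hout => (hq.2 e (hbig (hsub he))).2 fun hin => ?_⟩
        refine hout ⟨hin.1.trans ?_, hin.2.trans ?_⟩ <;>
        · push_cast
          linarith [mul_nonneg (Int.natCast_nonneg A) (Int.natCast_nonneg k)]
  -- the lane from the lower member and the lane from the upper member
  set R := laneEdges d N A B r (100 * t) x (64 * (s + δ) + 12 * (-1)) with hR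
  have hxs : |x - 64 * s| ≤ 16 := by rw [abs_le]; rcases hv with h | h <;> subst h <;> omega
  have hxs' : |x + 8 - 64 * s| ≤ 16 := by rw [abs_le]; rcases hv with h | h <;> subst h <;> omega
  have hRU : R ⊆ reserved d N A B r t s v := fun e he => by
    refine ⟨δ, hδ, ?_⟩
    rw [← hx]
    simpa [hR, sub_eq_add_neg] using he
  have hdis : ∀ e ∈ R, e ∉ laneEdges d N A B r (100 * t) (x + 8) (64 * (s + δ) + 12 * 1) := by
    intro e he
    have hz : 64 * (s + δ) + 12 * 1 = 64 * (s + δ) + 12 * (-1) + 24 := by ring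
    rw [hz]
    exact lanes_disjoint hr hB hD (by rw [← hz]; exact hD') he
  rw [sq]
  refine Pr_two_lanes hq.1 R (X := S.Hit (100 * t) x \ version S (t + 1) (s + δ) (-1))
    (Y := whenShut R (S.Hit (100 * t) (x + 8) \ version S (t + 1) (s + δ) 1))
    (localEv_whenShut R _) ?_ (by linarith) (fun w _ => ?_) ?_
  · rintro w ⟨⟨h1, h2⟩, hno⟩
    have hsh : shut (reserved d N A B r t s v) w ≤ shut R w := fun e => by
      by_cases he : e ∈ R
      · simp [shut, he, hRU he]
      · by_cases he' : e ∈ reserved d N A B r t s v <;> simp [shut, he, he']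
    refine ⟨⟨?_, fun h => hno (Or.inr (version_upper S _ _ _ (shut_le R w) h))⟩, ?_,
      fun h => hno (Or.inl h)⟩
    · have := S.mono _ _ hsh h2
      rwa [show x + 8 = 64 * s + 12 * v + 4 by omega]
    · rwa [hx]
  · exact lane (-1) x _ hD hxs (Or.inl rfl) (fixOut_mem hq.1 R w) fun e he => by
      have h : e ∈ R := he
      simp [fixOut, h]
  · rw [← Pr_closeW]
    exact lane 1 (x + 8) _ hD' hxs' (Or.inr rfl) (closeW_mem hq.1 R) fun e he => by
      have : e ∉ R := fun h => hdis e h he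
      simp [closeW, this]

theorem next (hp : p ∈ Set.Icc (0 : ℝ) 1)
    (hr : r < A) (hB : 1 ≤ B) (hε : 0 ≤ ε) (S : System d N p r A B ε a) :
    ∃ S' : System d N p r (100 * A) (64 * B) (40000 * ε ^ 2) a,
      ∀ q : Ed (d + 2) N → ℝ, (∀ e, q e ∈ Set.Icc p 1) →
        (∀ e ∉ halfSpace (d + 2) N r, q e = p) → Fits N (100 * A) (64 * B) 1 0 →
        Pr q (S.Hit 1 0 \ S'.Hit 1 0) ≤ 200 * ε := by
  refine ⟨{
      Hit := fun t s => version S t s (-1) ∪ version S t s 1
      mono := fun t s => (version_upper S t s _).union (version_upper S t s _)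
      local_hit := fun t s w w' h =>
        or_congr (version_local S t s _ w w' h) (version_local S t s _ w w' h)
      reach := fun t s w hw => ?_
      step := fun t s δ q hδ hfit hq => ?_ }, ?_⟩
  · obtain ⟨v, hv⟩ : ∃ v, w ∈ version S t s v := hw.elim (⟨_, ·⟩) (⟨_, ·⟩)
    obtain ⟨y, hy, hy0⟩ := S.reach _ _ w hv.1
    exact ⟨y, hy, by push_cast; linarith⟩
  · rw [Set.union_sdiff_distrib]
    refine (Pr_union_le hq.1 _ _).trans ?_
    have h1 := version_step hr hB hε S (v := -1) (Or.inl rfl) hδ hfit hq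
    have h2 := version_step hr hB hε S (v := 1) (Or.inr rfl) hδ hfit hq
    nlinarith [sq_nonneg ε]
  · intro q hq hout hfit
    have hqI : ∀ e, q e ∈ Set.Icc (0 : ℝ) 1 := fun e => ⟨hp.1.trans (hq e).1, (hq e).2⟩
    have h := lane_le S hε hqI (t := 0) (x := 1) (z := 64 * 0 + 12 * (-1)) (i := 1)
      (by norm_num) (by omega) (reserved d N A B r 1 0 (-1))
      (fun e he => reserved_avoid hr hB (by ring) he) ?_
    · have h0 : lanePath 1 (64 * 0 + 12 * (-1)) (-1) 1 = 0 := by norm_num [lanePath]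
      rw [h0, Nat.cast_one, zero_add, zero_add] at h
      refine le_trans (Pr_mono hqI (Set.sdiff_subset_sdiff_right ?_)) (h.trans (by linarith))
      refine fun w hw => Or.inl ?_
      simpa [version] using hw
    · intro k hk hk' σ hσ
      obtain ⟨h1, h2⟩ := hfit
      push_cast at h1 h2
      refine ⟨⟨?_, ?_⟩, hqI, fun e _ => ⟨(hq e).1, fun he => hout e fun hin => he ?_⟩⟩
      · have : |0 + (k : ℤ)| + 2 ≤ 100 * (|1| + 2) := by
          rw [zero_add, abs_of_nonneg (Int.natCast_nonneg k), abs_one]; omega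
        linarith [mul_le_mul_of_nonneg_left this (Int.natCast_nonneg A)]
      · have : |lanePath 1 (64 * 0 + 12 * (-1)) σ k| + 2 ≤ 64 * (|0| + 2) := by
          rw [abs_zero, ← le_sub_iff_add_le, abs_le]
          unfold lanePath
          rcases hσ with h | h <;> subst h <;> split_ifs <;> omega
        linarith [mul_le_mul_of_nonneg_left this (Int.natCast_nonneg B)]
      · have := mul_nonneg (Int.natCast_nonneg A) (Int.natCast_nonneg k)
        exact ⟨hin.1.trans (by linarith), hin.2.trans (by linarith)⟩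

end Vale.Agent.P151.Renorm
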