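import Vale.Agent.P151.Zd.Conclude

/-!
# Openness of percolation puts the critical parameter below one
-/

open MeasureTheory

namespace Vale.Agent.P151.Renorm

open Vale.Agent.P165

/-- At parameter one the origin is in an infinite cluster almost surely. -/
theorem infAt_one (d : ℕ) :
    perc (Zd.zd (d + 1)) (1 : unitInterval) (infAt (Zd.zd (d + 1)) 0) = 1 := by
  classical
  set G := Zd.zd (d + 1)
  refine le_antisymm prob_le_one ?_
  have hbad : perc G (1 : unitInterval) {ω | ¬∀ e : G.edgeSet, ω e = true} = 0 := by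
    have : {ω : Config G | ¬∀ e : G.edgeSet, ω e = true} = ⋃ e : G.edgeSet, (openOn G {e.1})ᶜ := by
      ext ω
      simp [openOn]
    rw [this]
    have : Countable (Zd.Site (d + 1)) := inferInstance
    refine measure_iUnion_null fun e => ?_
    rw [prob_compl_eq_zero_iff (measurableSet_openOn _)]
    have h := real_openOn (G := G) (1 : unitInterval) (S := {e.1}) (by simp)
    rw [Set.Icc.coe_one, one_pow, measureReal_def, ENNReal.toReal_eq_one_iff] at h
    exact h
  have hsub : {ω : Config G | ∀ e : G.edgeSet, ω e = true} ⊆ infAt G 0 := by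
    intro ω hω
    have heq : openGraph G ω = G := by
      ext u v
      exact ⟨fun h => h.1, fun h => ⟨h, hω _⟩⟩
    have : Infinite (Zd.Site (d + 1)) := inferInstance
    show Set.Infinite _
    rw [heq, show {z | G.Reachable 0 z} = Set.univ from
      Set.eq_univ_of_forall fun z => (Zd.zd_connected (d + 1)).preconnected 0 z]
    exact Set.infinite_univ
  refine le_trans (le_of_eq ?_) (measure_mono hsub)
  have hmeas : MeasurableSet {ω : Config G | ∀ e : G.edgeSet, ω e = true} := by
    have : Countable (Zd.Site (d + 1)) := inferInstance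
    have hset : {ω : Config G | ∀ e : G.edgeSet, ω e = true} = ⋂ e : G.edgeSet, openOn G {e.1} := by
      ext ω
      simp only [openOn, Set.mem_iInter, Set.mem_ofPred_eq, Finset.mem_singleton]
      exact ⟨fun h _ f _ => h f, fun h f => h f f rfl⟩
    rw [hset]
    exact MeasurableSet.iInter fun e => measurableSet_openOn _
  exact ((prob_compl_eq_zero_iff hmeas).1 hbad).symm

/-- Openness of percolation gives a critical parameter below one. -/
theorem pc_lt_one (d : ℕ)
    (h : ∀ p : unitInterval, 0 < perc (Zd.zd (d + 2)) p (infAt (Zd.zd (d + 2)) 0) →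
      ∃ q : unitInterval, (q : ℝ) < p ∧ 0 < perc (Zd.zd (d + 2)) q (infAt (Zd.zd (d + 2)) 0)) :
    pc (Zd.zd (d + 2)) < 1 := by
  obtain ⟨q, hq1, hq⟩ := h 1 (by rw [infAt_one (d + 1)]; exact zero_lt_one)
  have hle : pc (Zd.zd (d + 2)) ≤ (q : ℝ) :=
    csInf_le ⟨0, by rintro _ ⟨r, -, rfl⟩; exact r.2.1⟩
      ⟨q, (Zd.hasInfinite_pos_iff (d + 2) q).2 hq, rfl⟩
  exact hle.trans_lt hq1

end Vale.Agent.P151.Renorm
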