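import Vale.Agent.P151.Renorm.FinalCore
import Vale.Agent.P151.Renorm.Base
import Vale.Agent.P151.Renorm.Level
import Vale.Agent.P151.Renorm.GM
import Vale.Agent.P151.Renorm.PcLtOne

/-!
# No percolation at the critical point of the lattice
-/

open MeasureTheory

namespace Vale.Agent.P151.Renorm

open Vale.Agent.P165

/-- Percolation is an open condition on the lattice. -/
theorem openness (d : ℕ) (p : unitInterval)
    (hθ : 0 < perc (Zd.zd (d + 2)) p (infAt (Zd.zd (d + 2)) 0)) :
    ∃ q : unitInterval, (q : ℝ) < p ∧ 0 < perc (Zd.zd (d + 2)) q (infAt (Zd.zd (d + 2)) 0) :=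
  openness_core (base d) (fun hp hr hB hε S => next hp hr hB hε S) (fun p => crit_of_infAt d p)
    p hθ

end Vale.Agent.P151.Renorm
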