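import Vale.Agent.P151.Renorm.Bridge
import Vale.Agent.P151.Renorm.CritOne
import Vale.Agent.P151.Zd.Conclude

/-!
# Openness from the criterion and the renormalisation

The base level and the passage to the next level enter as hypotheses here.
-/

open Finset MeasureTheory ProbabilityTheory Filter Topology

namespace Vale.Agent.P151.Renorm

open Glue0 Vale.Agent.P165

/-- The seeds whose opening starts the renormalisation, in the window. -/
def startSet (d N r m : ℕ) : Set (Ed (d + 2) N) :=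
  inside fun x => |x 0| ≤ r ∧ ∀ j, j ≠ 0 → |x j| ≤ 20 * (m : ℤ)

/-- The statement of the base level. -/
def BaseStatement (d : ℕ) : Prop :=
  ∃ K : ℝ, 0 < K ∧ ∀ (p δ : ℝ) (r m M N : ℕ) (a : Vt (d + 2) N),
    p ∈ Set.Ioo (0 : ℝ) 1 → 0 < δ → δ < 1 → 1 ≤ r → 10 * r ≤ m → (a : Zd.Site (d + 2)) = 0 →
    (∀ n, m ≤ n + r → n ≤ 20 * m → Crit (d + 2) p r n (spread (d + 2) r M) (δ ^ 2)) →
    80 * m ≤ N →
    ∃ S : System d N p r (40 * m) (40 * m) (K * hopErr (d + 2) r M p δ) a,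
      ∀ w, (∀ e ∈ startSet d N r m, w e = true) → w ∈ S.Hit 0 0

/-- The statement of the passage to the next level. -/
def NextStatement (d : ℕ) : Prop :=
  ∀ {N r A B : ℕ} {p ε : ℝ} {a : Vt (d + 2) N}, p ∈ Set.Icc (0 : ℝ) 1 →
    r < A → 1 ≤ B → 0 ≤ ε → ∀ S : System d N p r A B ε a,
    ∃ S' : System d N p r (100 * A) (64 * B) (40000 * ε ^ 2) a,
      ∀ q : Ed (d + 2) N → ℝ, (∀ e, q e ∈ Set.Icc p 1) →
        (∀ e ∉ halfSpace (d + 2) N r, q e = p) → Fits N (100 * A) (64 * B) 1 0 →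
        Pr q (S.Hit 1 0 \ S'.Hit 1 0) ≤ 200 * ε

variable {d N : ℕ}

/-- The lattice sites of the start. -/
noncomputable def startBox (d r m : ℕ) : Finset (Zd.Site (d + 2)) :=
  Fintype.piFinset fun j => if j = 0 then Icc (-(r : ℤ)) r else Icc (-(20 * m : ℤ)) (20 * m)

theorem card_start_le (d N r m : ℕ) :
    (Set.toFinite (startSet d N r m)).toFinset.card ≤ (startBox d r m).card * (d + 2) := by
  classical
  have h := card_le_card_of_injOn (s := (Set.toFinite (startSet d N r m)).toFinset)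
    (t := startBox d r m ×ˢ (univ : Finset (Fin (d + 2))))
    (fun e : Ed (d + 2) N => ((e.1.1 : Zd.Site (d + 2)), e.1.2)) ?_ ?_
  · simpa [card_product] using h
  · intro e he
    simp only [Set.Finite.coe_toFinset] at he
    obtain ⟨⟨h0, hj⟩, -⟩ := he
    simp only [coe_product, Set.mem_prod, mem_coe, mem_univ, and_true, startBox,
      Fintype.mem_piFinset]
    intro j
    by_cases hj0 : j = 0
    · subst hj0
      rw [if_pos rfl, mem_Icc]
      exact abs_le.1 h0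
    · rw [if_neg hj0, mem_Icc]
      exact abs_le.1 (hj j hj0)
  · intro e _ e' _ h
    simp only [Prod.mk.injEq] at h
    exact Subtype.ext (Prod.ext (Subtype.ext h.1) h.2)

/-- Forcing a set of edges open costs at most the probability that they are all open. -/
theorem mul_Pr_forced_le {E : Type} [Fintype E] [DecidableEq E] {x : ℝ}
    (hx : x ∈ Set.Icc (0 : ℝ) 1) (S : Finset E) (H : Set (E → Bool)) :
    x ^ S.card * Pr (fun e => if e ∈ S then 1 else x) H ≤ Pr (fun _ : E => x) H := by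
  classical
  rw [Pr, Pr, Ev, Ev, mul_sum]
  refine sum_le_sum fun w _ => ?_
  have hnn : 0 ≤ H.indicator (1 : (E → Bool) → ℝ) w :=
    Set.indicator_nonneg (fun _ _ => zero_le_one) w
  by_cases hw : ∀ e ∈ S, w e = true
  · rw [← mul_assoc]
    refine le_of_eq ?_
    congr 1
    rw [wgt, wgt, ← prod_mul_prod_compl S, ← prod_mul_prod_compl S (fun e => if w e then x else _),
      ← mul_assoc]
    congr 1
    · rw [prod_congr rfl (g := fun _ => (1 : ℝ)) fun e he => by simp [he, hw e he],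
        prod_const_one, mul_one, prod_congr rfl (g := fun _ => x) fun e he => by simp [hw e he],
        prod_const]
    · exact prod_congr rfl fun e he => by simp [mem_compl.1 he]
  · push Not at hw
    obtain ⟨e, he, hwe⟩ := hw
    have h0 : wgt (fun e => if e ∈ S then (1 : ℝ) else x) w = 0 :=
      prod_eq_zero (mem_univ e) (by simp [he, hwe])
    rw [h0, zero_mul, mul_zero]
    exact mul_nonneg (wgt_nonneg (fun _ => hx) w) hnn

/-- Every level hit is reached from the start with probability at least one half. -/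
theorem levels {q ε₀ : ℝ} {r A₀ B₀ : ℕ} {a : Vt (d + 2) N} (hq : q ∈ Set.Icc (0 : ℝ) 1)
    (hnext : NextStatement d) (hε : 0 ≤ ε₀) (hε1 : 80000 * ε₀ ≤ 1) (hr : r < A₀) (hB : 1 ≤ B₀)
    (S : System d N q r A₀ B₀ ε₀ a) (qw : Ed (d + 2) N → ℝ)
    (hqw : ∀ e, qw e ∈ Set.Icc q 1) (hout : ∀ e ∉ halfSpace (d + 2) N r, qw e = q)
    (hbase : 1 - ε₀ ≤ Pr qw (S.Hit 1 0)) (J : ℕ)
    (hfit : ∀ i ≤ J, Fits N (100 ^ i * A₀) (64 ^ i * B₀) 1 0) :
    ∃ A B e, A = 100 ^ J * A₀ ∧ B = 64 ^ J * B₀ ∧ ∃ T : System d N q r A B e a,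
      0 ≤ e ∧ e ≤ ε₀ / 2 ^ J ∧ 1 - ε₀ - 400 * ε₀ * (1 - 1 / 2 ^ J) ≤ Pr qw (T.Hit 1 0) := by
  induction J with
  | zero =>
    exact ⟨A₀, B₀, ε₀, by simp, by simp, S, hε, by simp, by simpa using hbase⟩
  | succ J ih =>
    obtain ⟨A, B, e, hA, hB', T, he0, he, hprob⟩ := ih fun i hi => hfit i (by omega)
    have hrA : r < A := hr.trans_le (hA ▸ Nat.le_mul_of_pos_left _ (by positivity))
    have hB1 : 1 ≤ B := hB.trans (hB' ▸ Nat.le_mul_of_pos_left _ (by positivity))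
    obtain ⟨T', hT'⟩ := hnext hq hrA hB1 he0 T
    have hA' : 100 * A = 100 ^ (J + 1) * A₀ := by rw [hA]; ring
    have hB'' : 64 * B = 64 ^ (J + 1) * B₀ := by rw [hB']; ring
    have h1 := hT' qw hqw hout (by rw [hA', hB'']; exact hfit (J + 1) le_rfl)
    refine ⟨100 * A, 64 * B, _, hA', hB'', T', mul_nonneg (by norm_num) (sq_nonneg e), ?_, ?_⟩
    · have hle : ε₀ / 2 ^ J ≤ ε₀ := div_le_self hε (one_le_pow₀ one_le_two)
      rw [pow_succ (2 : ℝ) J, ← div_div, le_div_iff₀ two_pos]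
      calc 40000 * e ^ 2 * 2 = 80000 * e * e := by ring
        _ ≤ 1 * e := mul_le_mul_of_nonneg_right (by linarith) he0
        _ ≤ ε₀ / 2 ^ J := by linarith
    · have hI : ∀ x, qw x ∈ Set.Icc (0 : ℝ) 1 := fun x => ⟨hq.1.trans (hqw x).1, (hqw x).2⟩
      have h2 : Pr qw (T.Hit 1 0) ≤ Pr qw (T'.Hit 1 0) + Pr qw (T.Hit 1 0 \ T'.Hit 1 0) :=
        (Pr_mono hI fun w hw => by
          by_cases h : w ∈ T'.Hit 1 0
          · exact Or.inl h
          · exact Or.inr ⟨hw, h⟩).trans (Pr_union_le hI _ _)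
      have h3 : 400 * ε₀ * (1 - 1 / 2 ^ J) + 200 * (ε₀ / 2 ^ J)
          = 400 * ε₀ * (1 - 1 / 2 ^ (J + 1)) := by rw [pow_succ]; field_simp; ring
      linarith

theorem continuous_hopErr (d r M : ℕ) (δ : ℝ) : Continuous fun x : ℝ => hopErr d r M x δ := by
  unfold hopErr
  fun_prop

theorem admissible_start {q : ℝ} {r A B : ℕ} {qw : Ed (d + 2) N → ℝ}
    (hq : q ∈ Set.Icc (0 : ℝ) 1) (hqw : ∀ e, qw e ∈ Set.Icc q 1)
    (hout : ∀ e ∉ halfSpace (d + 2) N r, qw e = q) : Admissible A B r q 0 0 0 qw :=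
  ⟨fun e => ⟨hq.1.trans (hqw e).1, (hqw e).2⟩, fun e _ => ⟨(hqw e).1, fun he => hout e (by
    simpa using he)⟩⟩

/-- Percolation at `q`, from the criterion at `q` with a small hop error. -/
theorem percolates_of_crit (hbase : BaseStatement d) (hnext : NextStatement d) :
    ∃ η : ℝ, 0 < η ∧ ∀ (q : unitInterval) (δ : ℝ) (r m M : ℕ), (q : ℝ) ∈ Set.Ioo (0 : ℝ) 1 →
      0 < δ → δ < 1 → 1 ≤ r → 10 * r ≤ m →
      (∀ n, m ≤ n + r → n ≤ 20 * m → Crit (d + 2) (q : ℝ) r n (spread (d + 2) r M) (δ ^ 2)) →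
      hopErr (d + 2) r M (q : ℝ) δ ≤ η →
      0 < perc (Zd.zd (d + 2)) q (infAt (Zd.zd (d + 2)) 0) := by
  classical
  obtain ⟨K, hK, hbase⟩ := hbase
  refine ⟨1 / (80000 * K), by positivity, fun q δ r m M hq hδ hδ1 hr hm hcrit herr => ?_⟩
  set ε₀ := K * hopErr (d + 2) r M (q : ℝ) δ with hε₀
  have hqI : (q : ℝ) ∈ Set.Icc (0 : ℝ) 1 := Set.Ioo_subset_Icc_self hq
  have herr0 : 0 ≤ hopErr (d + 2) r M (q : ℝ) δ := by
    have hπ := pow_le_one₀ (n := (d + 2) * (2 * r + 1) ^ (d + 2 - 1) * (2 * r)) hqI.1 hqI.2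
    have hπ0 := pow_nonneg hqI.1 ((d + 2) * (2 * r + 1) ^ (d + 2 - 1) * (2 * r))
    exact add_nonneg (add_nonneg hδ.le (pow_nonneg (sub_nonneg.2 hπ) _))
      (mul_nonneg (mul_nonneg (Nat.cast_nonneg M) hπ0) hδ.le)
  have hε : 0 ≤ ε₀ := mul_nonneg hK.le herr0
  have hε1 : 80000 * ε₀ ≤ 1 := by
    have h := mul_le_mul_of_nonneg_left herr hK.le
    rw [mul_one_div, ← hε₀, le_div_iff₀ (by positivity)] at h
    exact le_of_mul_le_mul_right (by linarith) hK
  set c : ℝ := (q : ℝ) ^ ((startBox d r m).card * (d + 2)) * (1 / 2) with hc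
  refine Zd.zd_infAt_pos_of_arms q (c := c)
    (mul_pos (pow_pos hq.1 _) one_half_pos) fun R => ?_
  obtain ⟨J, hJ⟩ : ∃ J, R + r < 100 ^ J * (40 * m) :=
    ⟨R + r, (Nat.lt_pow_self (by norm_num)).trans_le (Nat.le_mul_of_pos_right _ (by omega))⟩
  set N := 3 * (100 ^ J * (40 * m)) with hN
  have hA0 : 40 * m ≤ 100 ^ J * (40 * m) := Nat.le_mul_of_pos_left _ (by positivity)
  let a : Vt (d + 2) N := ⟨0, Zd.mem_box.2 fun j => by simp⟩
  obtain ⟨S, hS⟩ := hbase (q : ℝ) δ r m M N a hq hδ hδ1 hr hm rfl hcrit (by omega)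
  set F := (Set.toFinite (startSet d N r m)).toFinset with hF
  set qw : Ed (d + 2) N → ℝ := fun e => if e ∈ F then 1 else (q : ℝ) with hqw
  have hqw' : ∀ e, qw e ∈ Set.Icc (q : ℝ) 1 := fun e => by
    simp only [hqw]
    split_ifs
    · exact ⟨hqI.2, le_rfl⟩
    · exact ⟨le_rfl, hqI.2⟩
  have hout : ∀ e ∉ halfSpace (d + 2) N r, qw e = (q : ℝ) := fun e he => by
    refine if_neg fun h => he ?_
    rw [hF, Set.Finite.mem_toFinset] at h
    exact ⟨(abs_le.1 h.1.1).2, (abs_le.1 h.2.1).2⟩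
  have hI : ∀ e, qw e ∈ Set.Icc (0 : ℝ) 1 := fun e => ⟨hqI.1.trans (hqw' e).1, (hqw' e).2⟩
  have hfit : ∀ i ≤ J, Fits N (100 ^ i * (40 * m)) (64 ^ i * (40 * m)) 1 0 := by
    intro i hi
    have h1 : 100 ^ i * (40 * m) ≤ 100 ^ J * (40 * m) :=
      Nat.mul_le_mul_right _ (Nat.pow_le_pow_right (by norm_num) hi)
    have h2 : 64 ^ i * (40 * m) ≤ 100 ^ J * (40 * m) :=
      le_trans (Nat.mul_le_mul_right _ (Nat.pow_le_pow_left (by norm_num) i)) h1
    constructor <;> norm_num <;> norm_cast <;> omega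
  have hfit0 : Fits N (40 * m) (40 * m) 0 0 := by
    constructor <;> norm_num <;> norm_cast <;> omega
  have hb : 1 - ε₀ ≤ Pr qw (S.Hit 1 0) := by
    have h0 : Pr qw (S.Hit 0 0)ᶜ = 0 := by
      refine sum_eq_zero fun w _ => ?_
      by_cases hw : ∀ e ∈ startSet d N r m, w e = true
      · rw [Set.indicator_of_notMem (Set.notMem_compl_iff.2 (hS w hw)), mul_zero]
      · push Not at hw
        obtain ⟨e, he, hwe⟩ := hw
        have hz : wgt qw w = 0 := prod_eq_zero (mem_univ e) (by simp [hqw, hF, he, hwe])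
        rw [hz, zero_mul]
    rw [Pr_compl] at h0
    have h1 := S.step 0 0 0 qw (by norm_num) hfit0 (admissible_start hqI hqw' hout)
    have h2 : Pr qw (S.Hit 0 0) ≤ Pr qw (S.Hit 1 0) + Pr qw (S.Hit 0 0 \ S.Hit 1 0) :=
      (Pr_mono hI fun w hw => by
        by_cases h : w ∈ S.Hit 1 0
        · exact Or.inl h
        · exact Or.inr ⟨hw, h⟩).trans (Pr_union_le hI _ _)
    simp only [zero_add, ← hε₀] at h1
    linarith
  obtain ⟨A, B, e, hA, -, T, -, -, hT⟩ :=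
    levels hqI hnext hε hε1 (by omega) (by omega) S qw hqw' hout hb J hfit
  have hhalf : 1 / 2 ≤ Pr qw (T.Hit 1 0) := by
    have hp : (0 : ℝ) ≤ 1 / 2 ^ J := by positivity
    nlinarith
  have hsub : windowEv (d + 2) N (T.Hit 1 0) ⊆ Zd.arm (Zd.zd (d + 2)) ↑(Zd.box (d + 2) R) 0 := by
    intro ω hω
    obtain ⟨y, hy, hy0⟩ := T.reach 1 0 (windowConf (d + 2) N ω) hω
    refine ⟨(y : Zd.Site (d + 2)), fun h => ?_, reachable_of_cluster hy⟩
    have hb := (abs_le.1 (Zd.mem_box.1 (mem_coe.1 h) 0)).2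
    have hJ' : (R : ℤ) + r < (A : ℤ) := by rw [hA]; exact_mod_cast hJ
    linarith
  refine le_trans ?_ (measureReal_mono hsub)
  rw [perc_windowEv]
  refine le_trans ?_ (mul_Pr_forced_le hqI F (T.Hit 1 0))
  refine mul_le_mul ?_ hhalf (by norm_num) (pow_nonneg hqI.1 _)
  exact pow_le_pow_of_le_one hqI.1 hqI.2 (card_start_le d N r m)

/-- Percolation at `p` gives percolation at a smaller parameter. -/
theorem openness_core (hbase : BaseStatement d) (hnext : NextStatement d)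
    (hgm : ∀ p : unitInterval, 0 < (p : ℝ) → (p : ℝ) < 1 →
      0 < perc (Zd.zd (d + 2)) p (infAt (Zd.zd (d + 2)) 0) →
      ∀ ε > (0 : ℝ), ∃ r, 1 ≤ r ∧ ∀ M, ∃ n₀, ∀ n, n₀ ≤ n → Crit (d + 2) (p : ℝ) r n M ε)
    (p : unitInterval) (hθ : 0 < perc (Zd.zd (d + 2)) p (infAt (Zd.zd (d + 2)) 0)) :
    ∃ q : unitInterval, (q : ℝ) < p ∧ 0 < perc (Zd.zd (d + 2)) q (infAt (Zd.zd (d + 2)) 0) := by
  have hp0 : 0 < (p : ℝ) := Zd.pos_of_infAt_pos hθ
  have hcrit : ∀ ε > (0 : ℝ), ∃ r, 1 ≤ r ∧ ∀ M, ∃ n₀, ∀ n, n₀ ≤ n →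
      Crit (d + 2) (p : ℝ) r n M ε := by
    intro ε hε
    rcases eq_or_lt_of_le p.2.2 with h1 | h1
    · refine ⟨1, le_rfl, fun M => ⟨max M 1, fun n hn => ?_⟩⟩
      rw [h1]
      exact crit_one d 1 n M hε.le ((le_max_right _ _).trans hn) ((le_max_left _ _).trans hn)
    · exact hgm p hp0 h1 hθ ε hε
  obtain ⟨η, hη, hperc⟩ := percolates_of_crit hbase hnext
  -- the level of confidence, then the seed, then the number of hits
  obtain ⟨L, hL0, hL⟩ : ∃ L : ℝ, 0 ≤ L ∧ Real.exp (-L) ≤ η / 4 := by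
    refine ⟨max 0 (-Real.log (η / 4)), le_max_left _ _, ?_⟩
    calc Real.exp (-max 0 (-Real.log (η / 4))) ≤ Real.exp (Real.log (η / 4)) :=
          Real.exp_le_exp.2 (by linarith [le_max_right (0 : ℝ) (-Real.log (η / 4))])
      _ = η / 4 := Real.exp_log (by positivity)
  set δ : ℝ := min (1 / 2) (η / (4 * (L + 2))) with hδdef
  have hδ : 0 < δ := lt_min one_half_pos (by positivity)
  have hδ1 : δ < 1 := (min_le_left _ _).trans_lt (by norm_num)
  have hδη : δ * (L + 2) ≤ η / 4 := by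
    have := mul_le_mul_of_nonneg_right (min_le_right (1 / 2) (η / (4 * (L + 2))))
      (by linarith : (0 : ℝ) ≤ L + 2)
    rw [← hδdef, div_mul_eq_mul_div, mul_comm η, mul_comm 4, ← div_div,
      mul_div_cancel_left₀ _ (by linarith : L + 2 ≠ 0)] at this
    exact this
  obtain ⟨r, hr, hcrit⟩ := hcrit (δ ^ 2 / 2) (by positivity)
  set E : ℕ := (d + 2) * (2 * r + 1) ^ (d + 2 - 1) * (2 * r)
  set π : ℝ := (p : ℝ) ^ E
  have hπ0 : 0 < π := pow_pos hp0 _
  have hπ1 : π ≤ 1 := pow_le_one₀ hp0.le p.2.2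
  set M := ⌈L / π⌉₊ with hM
  have hMπ : L ≤ M * π := by
    have := Nat.le_ceil (L / π)
    rwa [div_le_iff₀ hπ0] at this
  have hMπ' : M * π ≤ L + 1 := by
    have h := (Nat.ceil_lt_add_one (div_nonneg hL0 hπ0.le)).le
    have h2 := mul_le_mul_of_nonneg_right h hπ0.le
    rw [add_mul, div_mul_cancel₀ _ hπ0.ne', one_mul] at h2
    linarith
  have herr : hopErr (d + 2) r M (p : ℝ) δ < η := by
    have h1 : (1 - π) ^ M ≤ Real.exp (-L) := by
      refine le_trans ?_ (Real.exp_le_exp.2 (neg_le_neg hMπ))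
      rw [← mul_neg, Real.exp_nat_mul]
      refine pow_le_pow_left₀ (sub_nonneg.2 hπ1) ?_ _
      have := Real.add_one_le_exp (-π)
      linarith
    have h2 : (M : ℝ) * π * δ ≤ (L + 1) * δ := mul_le_mul_of_nonneg_right hMπ' hδ.le
    show δ + (1 - π) ^ M + (M : ℝ) * π * δ < η
    linarith
  obtain ⟨n₀, hn₀⟩ := hcrit (spread (d + 2) r M)
  set m := max (10 * r) (n₀ + r) with hm
  have hev : ∀ᶠ x in 𝓝[<] (p : ℝ),
      ((∀ n ∈ Finset.Icc n₀ (20 * m), Crit (d + 2) x r n (spread (d + 2) r M) (δ ^ 2)) ∧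
        hopErr (d + 2) r M x δ < η) ∧ x ∈ Set.Ioo (0 : ℝ) p := by
    refine Eventually.and ((Eventually.and ?_ ?_).filter_mono nhdsWithin_le_nhds)
      (Ioo_mem_nhdsLT hp0)
    · rw [eventually_all_finset]
      intro n hn
      exact crit_eventually (d + 2) r n _ (half_lt_self (by positivity))
        (hn₀ n (Finset.mem_Icc.1 hn).1)
    · exact ((continuous_hopErr (d + 2) r M δ).tendsto _).eventually (eventually_lt_nhds herr)
  obtain ⟨x, ⟨hxc, hxe⟩, hx0, hxp⟩ := hev.exists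
  refine ⟨⟨x, hx0.le, hxp.le.trans p.2.2⟩, hxp, hperc _ δ r m M ⟨hx0, hxp.trans_le p.2.2⟩
    hδ hδ1 hr (le_max_left _ _) (fun n h1 h2 => hxc n (Finset.mem_Icc.2 ⟨?_, h2⟩)) hxe.le⟩
  have := le_max_right (10 * r) (n₀ + r)
  omega

end Vale.Agent.P151.Renorm
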