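import Vale.Agent.P151.Renorm.Weights
import Vale.Agent.P151.Glue0.Step

/-!
# Renormalisation: tools for one hop

The gluing step, open boxes, their number of edges, and sites with disjoint boxes.
-/

open Finset

namespace Vale.Agent.P151.Renorm

open Glue0

section Generic

variable {V E : Type}

variable [Fintype E] [DecidableEq E]

/-- The probability that the edges of a finite set are all open. -/
theorem Pr_open (q : E → ℝ) (B : Finset E) :
    Pr q {w | ∀ e ∈ B, w e = true} = ∏ e ∈ B, q e := by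
  classical
  have h := Fintype.prod_sum (fun e (b : Bool) =>
    (if b then q e else 1 - q e) * (if e ∈ B → b = true then 1 else 0))
  have lhs : ∀ e, (∑ b : Bool, (if b then q e else 1 - q e) *
      (if e ∈ B → b = true then 1 else 0)) = if e ∈ B then q e else 1 := by
    intro e; by_cases he : e ∈ B <;> simp [he]
  rw [Finset.prod_congr rfl fun e _ => lhs e, prod_ite_mem, univ_inter] at h
  rw [h, Pr, Ev]
  refine sum_congr rfl fun w _ => ?_
  rw [prod_mul_distrib, wgt]
  congr 1
  by_cases hw : ∀ e ∈ B, w e = true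
  · rw [Set.indicator_of_mem (show w ∈ {w : E → Bool | ∀ e ∈ B, w e = true} from hw)]
    simpa using (prod_eq_one fun e _ => if_pos (hw e)).symm
  · rw [Set.indicator_of_notMem (show w ∉ {w : E → Bool | ∀ e ∈ B, w e = true} from hw)]
    push Not at hw
    obtain ⟨e, he, hwe⟩ := hw
    exact (prod_eq_zero (mem_univ e) (if_neg fun hh => by simp [hh he] at hwe)).symm

variable [Fintype V] [DecidableEq V]

/-- The gluing step in the vocabulary of the renormalisation. -/
theorem glue_step (en : E → V × V) {q : E → ℝ} (hq : ∀ e, q e ∈ Set.Icc (0 : ℝ) 1) (A S : Set E)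
    (G : V → Set (E → Bool)) (hG : ∀ i, LocalEv S (G i)) (a : V)
    {F : Set V → ℝ} (hF : Monotone F) (_hF1 : ∀ C, F C ≤ 1) {δ : ℝ} (hδ : 0 ≤ δ)
    (h : ∀ i w, w ∈ G i → 1 - δ ≤
      Ev (fixOut Sᶜ w q) (fun v => F (cluster en (shut Aᶜ v) i))) :
    Ev q (fun w => ({w | ∃ i, w ∈ G i ∧ i ∈ cluster en (shut Aᶜ w) a} : Set (E → Bool)).indicator
      1 w * (1 - F (cluster en (shut Aᶜ w) a))) ≤ δ := by
  classical
  let S' : (E → Bool) → Finset V := fun w => univ.filter fun i => w ∈ G i
  have hS' : Local S S' := fun w w' hw => Finset.ext fun i => by simp [S', hG i w w' hw]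
  have hit_eq : ({w | ∃ i, w ∈ G i ∧ i ∈ cluster en (shut Aᶜ w) a} : Set (E → Bool))
      = seedHit en Aᶜ a S' := by
    ext w; simp [seedHit, S']
  have h1 := Glue0.glue_step (ends := en) hq Aᶜ S a S' hS' hF (ψ := fun _ => 1 - δ)
    fun w C i hi _ => by
      exact h i w (mem_filter.1 hi).2
  rw [hit_eq]
  have h2 : Ev q (fun w => (seedHit en Aᶜ a S').indicator 1 w * (1 - δ))
      = (1 - δ) * Pr q (seedHit en Aᶜ a S') := by
    rw [Pr, ← Ev_const_mul]
    simp only [mul_comm (1 - δ)]
  have h3 : Ev q (fun w => (seedHit en Aᶜ a S').indicator 1 w *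
      (1 - F (cluster en (shut Aᶜ w) a))) = Pr q (seedHit en Aᶜ a S')
      - Ev q (fun w => (seedHit en Aᶜ a S').indicator 1 w * F (cluster en (shut Aᶜ w) a)) := by
    rw [Pr, ← Ev_sub]
    simp only [mul_sub, mul_one]
  rw [h2] at h1
  rw [h3]
  have := mul_le_of_le_one_right hδ (Pr_le_one hq (seedHit en Aᶜ a S'))
  linarith

end Generic

variable {d N : ℕ}

theorem mem_inside {P : Zd.Site d → Prop} {e : Ed d N} :
    e ∈ inside P ↔ P (ends d N e).1 ∧ P (ends d N e).2 := Iff.rfl

/-- The number of edges in a box that fits in the window. -/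
theorem card_boxEdges {r : ℕ} {c : Zd.Site d} (hc : ∀ j, |c j| + r ≤ N)
    (B : Finset (Ed d N)) (hB : ∀ e, e ∈ B ↔ e ∈ boxEdges d N r c) :
    B.card = d * (2 * r + 1) ^ (d - 1) * (2 * r) := by
  classical
  let hi : Fin d → Fin d → ℤ := fun i j => if j = i then 1 else 0
  let T : Finset (Σ _ : Fin d, Zd.Site d) := univ.sigma fun i =>
    Fintype.piFinset fun j => Icc (c j - r) (c j + r - hi i j)
  have hT : T.card = d * (2 * r + 1) ^ (d - 1) * (2 * r) := by
    have h1 : ∀ i : Fin d,
        (Fintype.piFinset fun j => Icc (c j - r) (c j + r - hi i j)).card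
          = (2 * r) * (2 * r + 1) ^ (d - 1) := by
      intro i
      rw [Fintype.card_piFinset, ← mul_prod_erase univ _ (mem_univ i)]
      congr 1
      · simp [hi, Int.card_Icc]
        omega
      · rw [prod_congr rfl (g := fun _ => 2 * r + 1) fun j hj => ?_, prod_const,
          card_erase_of_mem (mem_univ i), card_univ, Fintype.card_fin]
        simp [hi, Int.card_Icc, (mem_erase.1 hj).1]
        omega
    rw [card_sigma, sum_congr rfl fun i _ => h1 i, sum_const, card_univ, Fintype.card_fin,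
      smul_eq_mul]
    ring
  rw [← hT]
  refine card_bij (fun e _ => ⟨e.1.2, (e.1.1 : Zd.Site d)⟩) ?_ ?_ ?_
  · intro e he
    obtain ⟨h1, h2⟩ := mem_inside.1 ((hB e).1 he)
    simp only [T, mem_sigma, mem_univ, true_and, Fintype.mem_piFinset, mem_Icc]
    intro j
    have a1 := abs_le.1 (h1 j)
    have a2 := abs_le.1 (h2 j)
    simp only [ends, Zd.unit, Pi.add_apply] at a1 a2
    by_cases hj : j = e.1.2
    · subst hj; simp [hi] at a2 ⊢; omega
    · simp [hi, hj] at a2 ⊢; omega
  · intro e _ e' _ h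
    simp only [Sigma.mk.injEq, heq_eq_eq] at h
    exact Subtype.ext (Prod.ext (Subtype.ext h.2) h.1)
  · rintro ⟨i, b⟩ hb
    simp only [T, mem_sigma, mem_univ, true_and, Fintype.mem_piFinset, mem_Icc] at hb
    have hlo : ∀ j, |b j - c j| ≤ r := fun j => by
      have := hb j
      rw [abs_le]
      by_cases hj : j = i <;> simp [hi, hj] at this ⊢ <;> omega
    have hup : ∀ j, |b j + Zd.unit (i, true) j - c j| ≤ r := fun j => by
      have := hb j
      rw [abs_le]
      by_cases hj : j = i <;> simp [hi, hj, Zd.unit] at this ⊢ <;> omega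
    have hbox : ∀ x : Zd.Site d, (∀ j, |x j - c j| ≤ r) → x ∈ Zd.box d N := fun x hx =>
      Zd.mem_box.2 fun j => by linarith [hx j, hc j, abs_sub_abs_le_abs_sub (x j) (c j)]
    exact ⟨⟨(⟨b, hbox b hlo⟩, i), hbox _ hup⟩, (hB _).2 (mem_inside.2 ⟨hlo, hup⟩), rfl⟩

/-- An open box is connected. -/
theorem box_connected {r : ℕ} {c : Vt d N} {w : Ed d N → Bool}
    (hw : ∀ e ∈ boxEdges d N r c, w e = true) :
    ∀ (L : ℕ) (x : Vt d N), (∑ j, ((x : Zd.Site d) j - (c : Zd.Site d) j).natAbs) = L →
      (∀ j, |(x : Zd.Site d) j - (c : Zd.Site d) j| ≤ r) → x ∈ cluster (ends d N) w c := by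
  classical
  intro L
  induction L using Nat.strong_induction_on with
  | _ L IH =>
    intro x hL hx
    by_cases hxc : (x : Zd.Site d) = c
    · rw [Subtype.ext hxc]; exact mem_cluster_self w c
    obtain ⟨i, hi⟩ := Function.ne_iff.1 hxc
    set b : Bool := decide ((x : Zd.Site d) i < (c : Zd.Site d) i) with hb
    set x' : Zd.Site d := (x : Zd.Site d) + Zd.unit (i, b) with hx'
    have hcoord : ∀ j, j ≠ i → x' j = (x : Zd.Site d) j := fun j hj => by
      simp [hx', Zd.unit, hj]
    have hxi : x' i = (x : Zd.Site d) i + (if b then 1 else -1) := by simp [hx', Zd.unit]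
    have hcloser : |x' i - (c : Zd.Site d) i| + 1 = |(x : Zd.Site d) i - (c : Zd.Site d) i| := by
      by_cases hlt : (x : Zd.Site d) i < (c : Zd.Site d) i
      · have hb' : b = true := by simp [hb, hlt]
        rw [hxi, hb', if_pos rfl, abs_of_nonpos (by omega), abs_of_neg (by omega)]
        ring
      · have hb' : b = false := by simp [hb, hlt]
        rw [hxi, hb', if_neg (by simp), abs_of_nonneg (by omega), abs_of_nonneg (by omega)]
        ring
    have hxr : ∀ j, |x' j - (c : Zd.Site d) j| ≤ r := fun j => by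
      by_cases hj : j = i
      · subst hj; linarith [hx j]
      · rw [hcoord j hj]; exact hx j
    have hmem : x' ∈ Zd.box d N := Zd.mem_box.2 fun j => by
      have h1 := Zd.mem_box.1 x.2 j
      have h2 := Zd.mem_box.1 c.2 j
      by_cases hj : j = i
      · subst hj; rw [abs_le] at h1 h2 ⊢
        rw [hxi]
        by_cases hlt : (x : Zd.Site d) j < (c : Zd.Site d) j <;> simp [hb, hlt] <;> omega
      · rw [hcoord j hj]; exact h1
    have hlt : (∑ j, (x' j - (c : Zd.Site d) j).natAbs) < L := by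
      rw [← hL]
      refine sum_lt_sum (fun j _ => ?_) ⟨i, mem_univ i, ?_⟩
      · by_cases hj : j = i
        · subst hj
          rw [← Int.natCast_natAbs, ← Int.natCast_natAbs] at hcloser
          omega
        · rw [hcoord j hj]
      · rw [← Int.natCast_natAbs, ← Int.natCast_natAbs] at hcloser
        omega
    refine Relation.ReflTransGen.tail (IH _ hlt ⟨x', hmem⟩ rfl hxr) ?_
    rcases Bool.eq_false_or_eq_true b with hbt | hbf
    · refine ⟨⟨(x, i), by simpa [hx', hbt] using hmem⟩, hw _ (mem_inside.2 ⟨hx, ?_⟩), Or.inr ?_⟩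
      · simpa [ends, hx', hbt] using hxr
      · exact Prod.ext rfl (Subtype.ext (by simp [ends, hx', hbt]))
    · have hback : x' + Zd.unit (i, true) = (x : Zd.Site d) := by
        funext j
        by_cases hj : j = i
        · subst hj; simp [hx', hbf, Zd.unit]
        · simp [hx', Zd.unit, hj]
      refine ⟨⟨(⟨x', hmem⟩, i), by simp [hback, x.2]⟩, hw _ (mem_inside.2 ⟨hxr, ?_⟩), Or.inl ?_⟩
      · simpa [ends, hback] using hx
      · exact Prod.ext rfl (Subtype.ext hback)

/-- Among many sites some `M` have disjoint boxes. -/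
theorem exists_far (r M : ℕ) (s : Finset (Zd.Site d)) (h : M * (4 * r + 3) ^ d ≤ s.card) :
    ∃ T ⊆ s, T.card = M ∧
      (T : Set (Zd.Site d)).Pairwise fun x y => ∃ j, 2 * (r : ℤ) + 1 ≤ |x j - y j| := by
  classical
  induction M generalizing s with
  | zero => exact ⟨∅, empty_subset s, rfl, by simp⟩
  | succ M IH =>
    have hK : 0 < (4 * r + 3) ^ d := by positivity
    obtain ⟨x, hx⟩ := card_pos.1 (lt_of_lt_of_le (Nat.mul_pos (Nat.succ_pos M) hK) h)
    let near : Finset (Zd.Site d) :=
      Fintype.piFinset fun j => Icc (x j - (2 * r + 1)) (x j + (2 * r + 1))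
    have hnear : near.card = (4 * r + 3) ^ d := by
      rw [Fintype.card_piFinset, prod_congr rfl (g := fun _ => 4 * r + 3) fun j _ => ?_]
      · simp
      · rw [Int.card_Icc]; omega
    have hs' : M * (4 * r + 3) ^ d ≤ (s \ near).card := by
      have := le_card_sdiff near s
      rw [Nat.succ_mul] at h
      omega
    obtain ⟨T, hTs, hTc, hTp⟩ := IH (s \ near) hs'
    have hfar : ∀ y ∈ T, ∃ j, 2 * (r : ℤ) + 1 ≤ |x j - y j| := fun y hy => by
      have := (mem_sdiff.1 (hTs hy)).2
      simp only [near, Fintype.mem_piFinset, mem_Icc, not_forall] at this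
      obtain ⟨j, hj⟩ := this
      refine ⟨j, ?_⟩
      rw [le_abs]
      omega
    have hxT : x ∉ T := fun hxT => (mem_sdiff.1 (hTs hxT)).2 (by simp [near]; intro j; omega)
    refine ⟨insert x T, insert_subset hx (hTs.trans sdiff_subset),
      by rw [card_insert_of_notMem hxT, hTc], ?_⟩
    rw [coe_insert, Set.pairwise_insert_of_notMem hxT]
    exact ⟨hTp, fun y hy => ⟨hfar y hy,
      (hfar y hy).imp fun j hj => by rwa [abs_sub_comm]⟩⟩

theorem boxEdges_disjoint {r : ℕ} {x y : Zd.Site d} (h : ∃ j, 2 * (r : ℤ) + 1 ≤ |x j - y j|) :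
    Disjoint (boxEdges d N r x) (boxEdges d N r y) := by
  refine Set.disjoint_left.2 fun e hx hy => ?_
  obtain ⟨j, hj⟩ := h
  have h1 := abs_le.1 ((mem_inside.1 hx).1 j)
  have h2 := abs_le.1 ((mem_inside.1 hy).1 j)
  rw [le_abs] at hj
  omega

theorem manyHits_upper (r n M : ℕ) (c : Zd.Site d) (k : Fin d × Bool) (σ : Fin d → Bool) :
    IsUpperSet (manyHits d N r n M c k σ) := by
  intro w w' h hw
  refine le_trans hw (Set.ncard_le_ncard ?_ (Set.toFinite _))
  rintro y ⟨hy, x, hx, hyx⟩
  exact ⟨hy, x, hx, cluster_mono (shut_mono _ h) x hyx⟩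

theorem manyHits_local (r n M : ℕ) (c : Zd.Site d) (k : Fin d × Bool) (σ : Fin d → Bool) :
    LocalEv (ballEdges d N n c k) (manyHits d N r n M c k σ) := fun w w' h => by
  simp only [manyHits, Set.mem_ofPred_eq, shut_eq_of_agree (D := (ballEdges d N n c k)ᶜ) fun e he => h e (by simpa using he)]

theorem good_local {r M : ℕ} {p δ : ℝ} {I : Set (Zd.Site d)} (aim : Zd.Site d → Aim d)
    {c : Zd.Site d} (hc : c ∈ I) {w w' : Ed d N → Bool}
    (h : ∀ e, e ∈ slab d N r I → w e = w' e) :
    Good d N r M p δ I aim c w ↔ Good d N r M p δ I aim c w' := by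
  have e1 : fixOut (slab d N r I)ᶜ w (fun _ => p) = fixOut (slab d N r I)ᶜ w' (fun _ => p) := by
    funext e
    by_cases he : e ∈ slab d N r I <;> simp [fixOut, he, h]
  have hsub : boxEdges d N r c ⊆ slab d N r I :=
    Set.subset_biUnion_of_mem (u := fun c => boxEdges d N r c) hc
  exact and_congr (forall₂_congr fun e he => by rw [h e (hsub he)]) (by rw [e1])

end Vale.Agent.P151.Renorm
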