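import Vale.Agent.P151.Renorm.Bridge
import Vale.Agent.P151.Renorm.StepTools
import Vale.Agent.P151.Zd.Conclude

/-!
# Events of a window, and the symmetries of a centred window
-/

open Finset MeasureTheory ProbabilityTheory

namespace Vale.Agent.P151.Renorm

open Glue0 Vale.Agent.P165

section Events

variable {E : Type} [Fintype E] [DecidableEq E]

theorem Pr_closed (q : E → ℝ) (K : Finset E) :
    Pr q {w | ∀ e ∈ K, w e = false} = ∏ e ∈ K, (1 - q e) := by
  induction K using Finset.induction_on with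
  | empty => simp [Pr_univ]
  | insert a K ha ih =>
    have hset : {w : E → Bool | ∀ e ∈ insert a K, w e = false}
        = {w | w a = false} ∩ {w | ∀ e ∈ K, w e = false} := by
      ext w; simp
    have h1 : Pr q {w : E → Bool | w a = false} = 1 - q a := by
      have : {w : E → Bool | w a = false} = {w | w a = true}ᶜ := by
        ext w; cases h : w a <;> simp [h]
      rw [this, Pr_compl, ← Ev_coord q a, Pr]
      congr 2
      funext w
      by_cases h : w a = true <;> simp [h]
    rw [hset, Finset.prod_insert ha, Pr_inter_indep (R := {a}) (R' := ↑K) ?_ ?_ ?_, h1, ih]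
    · exact Set.disjoint_singleton_left.2 (by simpa using ha)
    · intro w w' h
      simp [h a rfl]
    · intro w w' h
      exact forall₂_congr fun e he => by rw [h e (mem_coe.2 he)]

theorem Pr_disjoint_sum_le {ι : Type*} {q : E → ℝ} (hq : ∀ e, q e ∈ Set.Icc (0 : ℝ) 1) (s : Finset ι)
    (A : ι → Set (E → Bool)) (U : Set (E → Bool)) (hU : ∀ i ∈ s, A i ⊆ U)
    (hd : ∀ i ∈ s, ∀ j ∈ s, ∀ w, w ∈ A i → w ∈ A j → i = j) :
    ∑ i ∈ s, Pr q (A i) ≤ Pr q U := by
  classical
  simp only [Pr, ← Ev_sum]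
  refine Ev_mono hq fun w => ?_
  by_cases h : ∃ i ∈ s, w ∈ A i
  · obtain ⟨i, hi, hw⟩ := h
    rw [Finset.sum_eq_single i (fun j hj hne => Set.indicator_of_notMem
      (fun hwj => hne (hd j hj i hi w hwj hw)) _) (fun hn => absurd hi hn)]
    simp [hw, hU i hi hw]
  · push Not at h
    rw [Finset.sum_eq_zero fun i hi => Set.indicator_of_notMem (h i hi) _]
    exact Set.indicator_nonneg (fun _ _ => zero_le_one) _

/-- The square-root trick. -/
theorem Pr_none_ge {ι : Type*} {q : E → ℝ} (hq : ∀ e, q e ∈ Set.Icc (0 : ℝ) 1)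
    (s : Finset ι) (A : ι → Set (E → Bool)) (hA : ∀ i ∈ s, IsUpperSet (A i)) :
    ∏ i ∈ s, (1 - Pr q (A i)) ≤ Pr q {w | ∀ i ∈ s, w ∉ A i} := by
  classical
  induction s using Finset.induction_on with
  | empty => simp [Pr_univ]
  | insert a s ha ih =>
    set D : Set (E → Bool) := {w | ∀ i ∈ s, w ∉ A i} with hD
    have hDl : IsLowerSet D := fun w w' hle hw i hi h' =>
      hw i hi ((hA i (mem_insert_of_mem hi)) hle h')
    have hAa := hA a (mem_insert_self a s)
    have hset : {w : E → Bool | ∀ i ∈ insert a s, w ∉ A i} = (A a)ᶜ ∩ D := by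
      ext w; simp [hD]
    have hsum : Pr q (A a ∩ D) + Pr q ((A a)ᶜ ∩ D) = Pr q D := by
      simp only [Pr, ← Ev_add]
      congr 1
      funext w
      by_cases h1 : w ∈ A a <;> by_cases h2 : w ∈ D <;> simp [h1, h2]
    have hh := Pr_harris_anti hq hAa hDl
    have h1 : 0 ≤ 1 - Pr q (A a) := sub_nonneg.2 (Pr_le_one hq _)
    have := mul_le_mul_of_nonneg_left (ih fun i hi => hA i (mem_insert_of_mem hi)) h1
    rw [Finset.prod_insert ha, hset]
    linarith

theorem Pr_const_comap (c : ℝ) {σ : E → E} (hσ : Function.Bijective σ) (A : Set (E → Bool)) :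
    Pr (fun _ => c) {w | w ∘ σ ∈ A} = Pr (fun _ => c) A := by
  let e := Equiv.ofBijective σ hσ
  simp only [Pr, Ev]
  refine Fintype.sum_equiv (e.symm.arrowCongr (Equiv.refl Bool)) _ _ fun w => ?_
  have he : (e.symm.arrowCongr (Equiv.refl Bool)) w = w ∘ σ := by
    funext x; simp [e]
  rw [he]
  have hw : wgt (fun _ => c) (w ∘ σ) = wgt (fun _ => c) w := by
    unfold wgt
    exact Fintype.prod_equiv e _ _ fun x => rfl
  rw [hw]
  rfl

end Events

/-! ### The edges of a window -/

variable {d N : ℕ}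

/-- The unordered pair of ends. -/
def pair (e : Ed d N) : Sym2 (Zd.Site d) :=
  s(((ends d N e).1 : Zd.Site d), ((ends d N e).2 : Zd.Site d))

theorem ends_snd (e : Ed d N) :
    ((ends d N e).2 : Zd.Site d) = (e.1.1 : Zd.Site d) + Zd.unit (e.1.2, true) := rfl

theorem pair_injective : Function.Injective (pair (d := d) (N := N)) := fun _ _ h =>
  toEdge_injective d N (Subtype.ext h)

theorem toEdge_mem (e : Ed d N) : pair e ∈ (Zd.zd d).edgeSet := (toEdge d N e).2

theorem measurableSet_windowEv (H : Set (Ed d N → Bool)) : MeasurableSet (windowEv d N H) :=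
  (measurable_pi_lambda _ fun e => measurable_pi_apply (toEdge d N e)) H.toFinite.measurableSet

theorem abs_unit_le (a : Fin d × Bool) (i : Fin d) : |Zd.unit a i| ≤ 1 := by
  by_cases hi : i = a.1
  · subst hi; cases h : a.2 <;> simp [Zd.unit, h]
  · simp [Zd.unit, hi]

theorem exists_edge {u v : Zd.Site d} (hu : u ∈ Zd.box d N) (hv : v ∈ Zd.box d N)
    {a : Fin d × Bool} (h : v = u + Zd.unit a) : ∃ e : Ed d N, pair e = s(u, v) := by
  obtain ⟨i, b⟩ := a
  cases b with
  | true => exact ⟨⟨(⟨u, hu⟩, i), by rw [← h]; exact hv⟩, (congrArg (fun z => s(u, z)) h.symm : s(u, u + Zd.unit (i, true)) = s(u, v))⟩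
  | false =>
    have h' : u = v + Zd.unit (i, true) := by
      rw [h, add_assoc]
      have : Zd.unit (i, false) + Zd.unit (i, true) = (0 : Zd.Site d) := by
        funext j; by_cases hj : j = i <;> simp [Zd.unit, hj]
      rw [this, add_zero]
    exact ⟨⟨(⟨v, hv⟩, i), by rw [← h']; exact hu⟩, ((congrArg (fun z => s(v, z)) h'.symm).trans Sym2.eq_swap : s(v, v + Zd.unit (i, true)) = s(u, v))⟩

theorem openAdj_iff {w : Ed d N → Bool} {x y : Vt d N} :
    openAdj (ends d N) w x y ↔ ∃ e, w e = true ∧ pair e = s((x : Zd.Site d), (y : Zd.Site d)) := by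
  constructor
  · rintro ⟨e, he, h | h⟩
    · exact ⟨e, he, by rw [pair, h]⟩
    · exact ⟨e, he, by rw [pair, h, Sym2.eq_swap]⟩
  · rintro ⟨e, he, h⟩
    simp only [pair, Sym2.eq_iff] at h
    refine ⟨e, he, ?_⟩
    rcases h with ⟨h1, h2⟩ | ⟨h1, h2⟩
    · exact Or.inl (Prod.ext (Subtype.ext h1) (Subtype.ext h2))
    · exact Or.inr (Prod.ext (Subtype.ext h1) (Subtype.ext h2))

theorem mem_inside_iff {P : Zd.Site d → Prop} {e : Ed d N} :
    e ∈ inside P ↔ ∀ z ∈ pair e, P z := by
  simp [inside, pair, Sym2.mem_iff]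

/-! ### Symmetries fixing the origin -/

/-- The sign of a direction. -/
def sgn (b : Bool) : ℤ := if b then 1 else -1

/-- A signed permutation of the coordinates. -/
def sp (π : Equiv.Perm (Fin d)) (s : Fin d → Bool) (x : Zd.Site d) : Zd.Site d :=
  fun j => sgn (s j) * x (π j)

theorem abs_sp (π : Equiv.Perm (Fin d)) (s : Fin d → Bool) (x : Zd.Site d) (j : Fin d) :
    |sp π s x j| = |x (π j)| := by
  cases hs : s j <;> simp [sp, sgn, hs, abs_neg]

theorem sp_box (π : Equiv.Perm (Fin d)) (s : Fin d → Bool) {x : Zd.Site d} (hx : x ∈ Zd.box d N) :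
    sp π s x ∈ Zd.box d N := Zd.mem_box.2 fun j => by
  rw [abs_sp]; exact Zd.mem_box.1 hx (π j)

theorem sp_injective (π : Equiv.Perm (Fin d)) (s : Fin d → Bool) : Function.Injective (sp π s) := by
  intro x y h
  funext j
  have := congrFun h (π.symm j)
  simp only [sp, Equiv.apply_symm_apply] at this
  exact mul_left_cancel₀ (by cases s (π.symm j) <;> decide) this

theorem sp_add_unit (π : Equiv.Perm (Fin d)) (s : Fin d → Bool) (x : Zd.Site d) (a : Fin d × Bool) :
    sp π s (x + Zd.unit a) = sp π s x + Zd.unit (π.symm a.1, s (π.symm a.1) == a.2) := by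
  obtain ⟨i, b⟩ := a
  funext j
  simp only [sp, Pi.add_apply, Zd.unit, mul_add]
  by_cases hj : j = π.symm i
  · subst hj
    cases hs : s (π.symm i) <;> cases b <;> simp [sgn]
  · have : π j ≠ i := fun h => hj (by simp [← h])
    simp [hj, this]

/-- The vertex map of a symmetry. -/
def spV (π : Equiv.Perm (Fin d)) (s : Fin d → Bool) (x : Vt d N) : Vt d N :=
  ⟨sp π s x, sp_box π s x.2⟩

theorem exists_spE (π : Equiv.Perm (Fin d)) (s : Fin d → Bool) (e : Ed d N) :
    ∃ e' : Ed d N, pair e' = (pair e).map (sp π s) := by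
  obtain ⟨e', he'⟩ := exists_edge (sp_box π s (ends d N e).1.2) (sp_box π s (ends d N e).2.2)
    (a := (π.symm e.1.2, s (π.symm e.1.2) == true))
    (by rw [ends_snd]; exact sp_add_unit π s _ (e.1.2, true))
  exact ⟨e', he'.trans rfl⟩

/-- The edge map of a symmetry. -/
noncomputable def spE (π : Equiv.Perm (Fin d)) (s : Fin d → Bool) (e : Ed d N) : Ed d N :=
  (exists_spE π s e).choose

theorem pair_spE (π : Equiv.Perm (Fin d)) (s : Fin d → Bool) (e : Ed d N) :
    pair (spE π s e) = (pair e).map (sp π s) :=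
  (exists_spE π s e).choose_spec

theorem spE_bijective (π : Equiv.Perm (Fin d)) (s : Fin d → Bool) :
    Function.Bijective (spE (N := N) π s) := by
  refine Finite.injective_iff_bijective.1 fun a b h => pair_injective ?_
  have := congrArg pair h
  rw [pair_spE, pair_spE] at this
  exact Sym2.map.injective (sp_injective π s) this

theorem spV_cluster (π : Equiv.Perm (Fin d)) (s : Fin d → Bool) {w : Ed d N → Bool}
    {x y : Vt d N} (h : y ∈ cluster (ends d N) (w ∘ spE π s) x) :
    spV π s y ∈ cluster (ends d N) w (spV π s x) := by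
  induction h with
  | refl => exact mem_cluster_self _ _
  | tail _ hab ih =>
    obtain ⟨e, he, hp⟩ := openAdj_iff.1 hab
    exact Relation.ReflTransGen.tail ih
      (openAdj_iff.2 ⟨spE π s e, he, by rw [pair_spE, hp]; rfl⟩)

/-- The vertices of a window as vertices of the next one. -/
def upV (x : Vt d N) : Vt d (N + 1) := ⟨x, Zd.box_mono d (Nat.le_succ N) x.2⟩

/-- The edges of a window as edges of the next one. -/
def upE (e : Ed d N) : Ed d (N + 1) :=
  ⟨(upV e.1.1, e.1.2), Zd.box_mono d (Nat.le_succ N) e.2⟩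

theorem pair_upE (e : Ed d N) : pair (upE e) = pair e := rfl

theorem windowConf_upE (ω : Config (Zd.zd d)) :
    windowConf d (N + 1) ω ∘ upE = windowConf d N ω := rfl

end Vale.Agent.P151.Renorm
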