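import Vale.Agent.P151.Renorm.StepTools
import Vale.Agent.P151.Renorm.Transfer

/-!
# Renormalisation: one hop

A cluster that has reached a good seed of one zone reaches, through the gluing inequality, many
points next to seeds of the following zone, among which one is open and good.
-/

open Finset

namespace Vale.Agent.P151.Renorm

open Glue0

theorem hop {d N r M : ℕ} {p δ : ℝ} (hp : p ∈ Set.Ioo (0 : ℝ) 1) (hδ : 0 < δ)
    (q : Ed d N → ℝ) (hq : ∀ e, q e ∈ Set.Icc (0 : ℝ) 1)
    (I J I' : Set (Zd.Site d)) (aim aim' : Zd.Site d → Aim d) (k : Fin d × Bool)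
    (A A' : Set (Ed d N)) (a : Vt d N)
    (hJ : J ⊆ I) (hS : slab d N r I ⊆ A) (hdisj : Disjoint A (slab d N r I'))
    (hA' : A ∪ slab d N r I' ⊆ A')
    (hk : ∀ c ∈ J, (aim c).k = k)
    (hball : ∀ c ∈ J, (∀ j, |c j| + (aim c).n ≤ N) ∧
      ballEdges d N (aim c).n c k ⊆ A ∧ ∀ e ∈ ballEdges d N (aim c).n c k, p ≤ q e)
    (htarget : ∀ c ∈ J, ∀ y ∈ piece d N (aim c).n c k (aim c).σ,
      (y : Zd.Site d) + (r : ℤ) • Zd.unit k ∈ I')
    (hwin : ∀ c ∈ I', (∀ j, |c j| + r ≤ N) ∧ ∀ j, |c j| + (aim' c).n ≤ N)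
    (hp' : ∀ e ∈ slab d N r I', q e = p)
    (hcrit : ∀ c ∈ I', r < (aim' c).n ∧ Crit d p r (aim' c).n (spread d r M) (δ ^ 2)) :
    Pr q (HitGood d N r (spread d r M) p δ I J aim A a \
      HitGood d N r (spread d r M) p δ I' I' aim' A' a) ≤ hopErr d r M p δ := by
  classical
  set K := spread d r M with hK
  set S := slab d N r I
  set S' := slab d N r I'
  set π : ℝ := p ^ (d * (2 * r + 1) ^ (d - 1) * (2 * r)) with hπ
  have hpI : p ∈ Set.Icc (0 : ℝ) 1 := Set.Ioo_subset_Icc_self hp
  have hp0 : ∀ _e : Ed d N, p ∈ Set.Icc (0 : ℝ) 1 := fun _ => hpI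
  -- points next to a seed of the next zone
  let next : Vt d N → Zd.Site d := fun y => (y : Zd.Site d) + (r : ℤ) • Zd.unit k
  have next_inj : Function.Injective next := fun y z h => Subtype.ext (add_right_cancel h)
  let hits : Set (Vt d N) → Finset (Vt d N) :=
    fun C => univ.filter fun y => next y ∈ I' ∧ y ∈ C
  let F : Set (Vt d N) → ℝ := fun C => if K ≤ (hits C).card then 1 else 0
  have hF : Monotone F := by
    intro C C' h
    simp only [F]
    split_ifs with h1 h2 <;> norm_num
    exact h2 (h1.trans (card_le_card fun y hy => by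
      simp only [hits, mem_filter, mem_univ, true_and] at hy ⊢
      exact ⟨hy.1, h hy.2⟩))
  let G : Vt d N → Set (Ed d N → Bool) :=
    fun c => {w | (c : Zd.Site d) ∈ J ∧ Good d N r K p δ I aim c w}
  have hG : ∀ c, LocalEv S (G c) := fun c w w' h => by
    by_cases hc : (c : Zd.Site d) ∈ J
    · simpa [G, hc] using good_local aim (hJ hc) h
    · simp [G, hc]
  have hgood : ∀ c w, w ∈ G c → 1 - δ ≤
      Ev (fixOut Sᶜ w q) (fun v => F (cluster (ends d N) (shut Aᶜ v) c)) := by
    rintro c w ⟨hc, hbox, hw⟩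
    obtain ⟨-, hBA, hpq⟩ := hball c hc
    rw [hk c hc] at hw
    set H := manyHits d N r (aim c).n K (c : Zd.Site d) k (aim c).σ
    have hBS : boxEdges d N r (c : Zd.Site d) ⊆ S := fun e he => Set.mem_biUnion (hJ hc) he
    have h1 : Pr (fixOut Sᶜ w (fun _ => p)) H ≤ Pr (fixOut Sᶜ w q) H := by
      have e1 : Pr (fixOut Sᶜ w (fun _ => p)) H
          = Pr (fixOut Sᶜ w (fun e => if e ∈ ballEdges d N (aim c).n c k then p else 0)) H :=
        Ev_congr_local (LocalEv.indicator (manyHits_local r (aim c).n K (c : Zd.Site d) k (aim c).σ)) fun e he => by simp [fixOut, he]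
      rw [e1]
      refine Pr_weights_mono (fixOut_mem (fun e => ?_) _ _) (fixOut_mem hq _ _) (fun e => ?_)
        (manyHits_upper ..)
      · split
        · exact hpI
        · simp
      · by_cases he : e ∈ S
        · simp [fixOut, he]
        · by_cases hb : e ∈ ballEdges d N (aim c).n c k
          · simp [fixOut, he, hb, hpq e hb]
          · simp [fixOut, he, hb, (hq e).1]
    refine hw.trans (h1.trans ?_)
    rw [Pr, Ev_fixOut, Ev_fixOut]
    refine Ev_mono hq fun v => ?_
    have hv : ∀ e ∈ boxEdges d N r (c : Zd.Site d), shut Aᶜ (mix Sᶜ w v) e = true := fun e he => by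
      rw [shut, if_neg (show e ∉ Aᶜ from not_not_intro (hS (hBS he))), mix_out _ _ (not_not_intro (hBS he))]
      exact hbox e he
    by_cases hm : mix Sᶜ w v ∈ H
    · rw [Set.indicator_of_mem hm, Pi.one_apply]
      simp only [F]
      rw [if_pos]
      refine le_trans (show K ≤ _ from hm) ?_
      rw [← Set.ncard_coe_finset]
      refine Set.ncard_le_ncard ?_ (Set.toFinite _)
      rintro y ⟨hy, x, hx, hxy⟩
      simp only [hits, coe_filter, mem_univ, true_and, Set.mem_ofPred_eq]
      refine ⟨htarget c hc y hy, Relation.ReflTransGen.trans (box_connected hv _ x rfl hx)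
        (cluster_mono (fun e => ?_) x hxy)⟩
      by_cases he : e ∈ ballEdges d N (aim c).n (c : Zd.Site d) k
      · simp [shut, he, hBA he]
      · simp [shut, he]
    · rw [Set.indicator_of_notMem hm]
      simp only [F]
      split <;> norm_num
  have hfirst := glue_step (ends d N) hq A S G hG a hF
    (fun C => by simp only [F]; split <;> norm_num) hδ.le hgood
  -- many hits, but no open good seed among them
  set Y : Set (Ed d N → Bool) := {w | K ≤ (hits (cluster (ends d N) (shut Aᶜ w) a)).card} with hY'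
  set X : Set (Ed d N → Bool) := {w | ∀ y ∈ hits (cluster (ends d N) (shut Aᶜ w) a),
    ¬Good d N r K p δ I' aim' (next y) w}
  have hsame : ∀ w w' : Ed d N → Bool, (∀ e, e ∈ S'ᶜ → w e = w' e) →
      shut Aᶜ w = shut Aᶜ w' := fun w w' h => funext fun e => by
    by_cases he : e ∈ A
    · simp [shut, he, h e (Set.disjoint_left.1 hdisj he)]
    · simp [shut, he]
  have hYl : LocalEv S'ᶜ Y := fun w w' h => by
    simp only [hY', Set.mem_ofPred_eq, hsame w w' h]
  have hπ1 : π ≤ 1 := pow_le_one₀ hpI.1 hpI.2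
  have hπ0 : 0 ≤ π := pow_nonneg hpI.1 _
  have hbad : ∀ c ∈ I', Pr q {v | (∀ e ∈ boxEdges d N r c, v e = true) ∧
        ¬Good d N r K p δ I' aim' c v} ≤ π * δ ∧
      Pr q {v | ∀ e ∈ boxEdges d N r c, v e = true} = π := by
    intro c hc
    have hBS : boxEdges d N r c ⊆ S' := fun e he => Set.mem_biUnion hc he
    set O : Set (Ed d N → Bool) := {v | ∀ e ∈ boxEdges d N r c, v e = true} with hO
    have hOl : LocalEv S' O := fun w w' h => forall₂_congr fun e he => by rw [h e (hBS he)]
    have hOq : Pr q O = π := by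
      let B := univ.filter (· ∈ boxEdges d N r c)
      have e1 : O = {v | ∀ e ∈ B, v e = true} := by ext v; simp [hO, B]
      rw [e1, Pr_open, prod_congr rfl (g := fun _ => p) fun e he => ?_, prod_const,
        card_boxEdges (hwin c hc).1 B fun e => by simp [B]]
      exact hp' e (hBS (mem_filter.1 he).2)
    refine ⟨?_, hOq⟩
    have hl : LocalEv S' {v | (∀ e ∈ boxEdges d N r c, v e = true) ∧
        ¬Good d N r K p δ I' aim' c v} := fun w w' h =>
      and_congr (hOl w w' h) (not_congr (good_local aim' hc h))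
    have eq1 : ∀ T, LocalEv S' T → Pr q T = Pr (fun _ => p) T := fun T hT =>
      Ev_congr_local hT.indicator hp'
    rw [eq1 _ hl, ← hOq, eq1 _ hOl]
    have hcr := crit_transfer (N := N) hpI (hcrit c hc).2 c (hwin c hc).2 (aim' c).k (aim' c).σ
      (fun _ => p) hp0 (fun _ _ => le_rfl)
    set H := manyHits d N r (aim' c).n K c (aim' c).k (aim' c).σ
    have hm := Pr_badOut_le (p := fun _ : Ed d N => p) hp0 S'ᶜ (O := O) (F := Hᶜ) (a := δ)
      (ε := δ ^ 2)
      (fun w w' h hw e he => le_antisymm le_top ((hw e he).symm.le.trans (h e)))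
      (by rwa [compl_compl]) (manyHits_upper ..).compl hδ (by rw [Pr_compl]; linarith)
    rw [pow_two, mul_div_assoc, div_self hδ.ne', mul_one, mul_comm] at hm
    refine (Pr_mono hp0 ?_).trans hm
    rintro v ⟨hvO, hvG⟩
    refine ⟨hvO, ?_⟩
    simp only [Good, not_and, not_le] at hvG
    have := hvG hvO
    simp only [badOut, prOut, Set.mem_ofPred_eq, Pr_compl]
    linarith
  have hX : ∀ w ∈ Y, Pr (fixOut S' w q) X ≤ (1 - π) ^ M + M * π * δ := by
    intro w hw
    set hs := hits (cluster (ends d N) (shut Aᶜ w) a) with hhs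
    obtain ⟨T, hT, hTc, hTp⟩ := exists_far r M (hs.image next) (by
      rw [card_image_of_injective _ next_inj]; exact hw)
    have hTI : ∀ c ∈ T, c ∈ I' := fun c hc => by
      obtain ⟨y, hy, rfl⟩ := mem_image.1 (hT hc)
      exact (mem_filter.1 hy).2.1
    have e := prOut_eq S' q X w
    rw [prOut] at e
    rw [e]
    refine (Pr_mono hq (B := {v | ∀ c ∈ T, v ∉ {v : Ed d N → Bool |
        ∀ e ∈ boxEdges d N r c, v e = true}} ∪ ⋃ c ∈ T, {v | (∀ e ∈ boxEdges d N r c, v e = true) ∧
        ¬Good d N r K p δ I' aim' c v}) fun v hv => ?_).trans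
      ((Pr_union_le hq _ _).trans (add_le_add ?_ ?_))
    · by_cases hno : ∃ c ∈ T, ∀ e ∈ boxEdges d N r c, v e = true
      swap
      · exact Or.inl fun c hc hop => hno ⟨c, hc, hop⟩
      refine Or.inr ?_
      obtain ⟨c, hc, hopen⟩ := hno
      obtain ⟨y, hy, rfl⟩ := mem_image.1 (hT hc)
      refine Set.mem_biUnion hc ⟨hopen, fun hg => hv y ?_ ?_⟩
      · rwa [hsame (mix S' w v) w fun e he => mix_out _ _ he]
      · exact (good_local aim' (hTI _ hc) fun e he => (mix_in _ _ he).symm).1 hg
    · exact (Pr_none_le hq T (fun c => {v : Ed d N → Bool | ∀ e ∈ boxEdges d N r c, v e = true})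
        (fun c => boxEdges d N r c)
        (fun c _ w w' h => forall₂_congr fun e he => by rw [h e he])
        (fun x hx y hy hne => boxEdges_disjoint (hTp hx hy hne))
        (fun c hc => (hbad c (hTI c hc)).2.ge) hπ1).trans_eq (by rw [hTc])
    · refine (Pr_biUnion_le hq T _).trans ((sum_le_sum fun c hc => (hbad c (hTI c hc)).1).trans_eq ?_)
      rw [sum_const, hTc, nsmul_eq_mul, mul_assoc]
  have hsecond : Pr q (Y ∩ X) ≤ (1 - π) ^ M + M * π * δ :=
    (Pr_inter_le_mul hq S' hYl hX).trans (mul_le_of_le_one_right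
      (add_nonneg (pow_nonneg (by linarith) _) (by positivity)) (Pr_le_one hq _))
  -- together
  set Z : Set (Ed d N → Bool) :=
    {w | ∃ i, w ∈ G i ∧ i ∈ cluster (ends d N) (shut Aᶜ w) a}
  calc Pr q (HitGood d N r K p δ I J aim A a \ HitGood d N r K p δ I' I' aim' A' a)
      ≤ Pr q ((Z ∩ Yᶜ) ∪ (Y ∩ X)) := Pr_mono hq fun w ⟨hw, hw'⟩ => by
        by_cases hy : w ∈ Y
        · refine Or.inr ⟨hy, fun y hyh hg => hw' ?_⟩
          simp only [hits, mem_filter, mem_univ, true_and] at hyh
          obtain ⟨hyI, hyC⟩ := hyh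
          have hd : ∀ j, |(y : Zd.Site d) j - next y j| ≤ r := fun j => by
            by_cases hj : j = k.1
            · subst hj; cases hkb : k.2 <;> simp [next, Zd.unit, hkb]
            · simp [next, Zd.unit, hj]
          let c : Vt d N := ⟨next y, Zd.mem_box.2 fun j => by
            have := (hwin _ hyI).1 j; have : (0 : ℤ) ≤ r := Nat.cast_nonneg r; omega⟩
          refine ⟨c, hyI, hg, Relation.ReflTransGen.trans (cluster_mono (fun e => ?_) a hyC)
            (cluster_symm (box_connected (c := c) (fun e he => ?_) _ y rfl hd))⟩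
          · by_cases he : e ∈ A
            · simp [shut, he, hA' (Or.inl he)]
            · simp [shut, he]
          · rw [shut, if_neg (show e ∉ A'ᶜ from not_not_intro (hA' (Or.inr (Set.mem_biUnion hyI he))))]
            exact hg.1 e he
        · obtain ⟨c, hc, hg, hcl⟩ := hw
          exact Or.inl ⟨⟨c, ⟨hc, hg⟩, hcl⟩, hy⟩
    _ ≤ Pr q (Z ∩ Yᶜ) + Pr q (Y ∩ X) := Pr_union_le hq _ _
    _ ≤ δ + ((1 - π) ^ M + M * π * δ) := by
        refine add_le_add (le_trans (le_of_eq ?_) hfirst) hsecond
        rw [Pr]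
        congr 1
        funext w
        by_cases h1 : w ∈ Z <;>
          by_cases h2 : K ≤ (hits (cluster (ends d N) (shut Aᶜ w) a)).card <;>
            simp [h1, h2, F, hY']
    _ = hopErr d r M p δ := by simp only [hopErr, ← hπ]; ring

end Vale.Agent.P151.Renorm
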