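import Vale.Agent.P151.Glue0.Toolkit
import Vale.Agent.P151.Renorm.Defs

/-!
Monotonicity in the weights, and the Markov step for seeds.
-/

open Finset

namespace Vale.Agent.P151.Renorm

open Glue0

section Weights

variable {E : Type} [Fintype E] [DecidableEq E] {q q' : E → ℝ}

/-- Only the weights of the edges that matter matter. -/
theorem Ev_congr_local {A : Set E} {g : (E → Bool) → ℝ} (hg : Local A g)
    (h : ∀ e ∈ A, q e = q' e) : Ev q g = Ev q' g := by
  have e1 : ∀ q : E → ℝ, Ev q g = Ev (fixOut A (fun _ => false) q) g := fun q => by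
    rw [Ev_fixOut]
    congr 1
    funext v
    exact hg _ _ fun e he => (mix_in _ _ he).symm
  have e2 : fixOut A (fun _ => false) q = fixOut A (fun _ => false) q' := by
    funext e
    by_cases he : e ∈ A <;> simp [fixOut, he, h]
  rw [e1 q, e1 q', e2]

/-- The weight of an edge is the probability that it is open. -/
theorem Ev_coord (q : E → ℝ) (e : E) :
    Ev q (fun v => if v e then (1 : ℝ) else 0) = q e := by
  let g : E → Bool → ℝ := fun i b =>
    (if b then q i else 1 - q i) * (if i = e then (if b then 1 else 0) else 1)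
  have h := Fintype.prod_sum g
  have hs : ∀ i, (∑ b, g i b) = if i = e then q e else 1 := fun i => by
    by_cases hi : i = e <;> simp [g, hi]
  rw [Finset.prod_congr rfl fun i _ => hs i] at h
  rw [Finset.prod_ite_eq' univ e (fun _ => q e), if_pos (mem_univ e)] at h
  rw [h]
  unfold Ev wgt
  refine sum_congr rfl fun v _ => ?_
  simp only [g, prod_mul_distrib, Finset.prod_ite_eq' univ e, mem_univ, if_true]

/-- Raising one weight raises the probability of an increasing event. -/
theorem Pr_raise_one (hq : ∀ e, q e ∈ Set.Icc (0 : ℝ) 1) (e : E)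
    (hoff : ∀ i, i ≠ e → q i = q' i) (hle : q e ≤ q' e) {H : Set (E → Bool)}
    (hH : IsUpperSet H) : Pr q H ≤ Pr q' H := by
  let f : (E → Bool) → ℝ := H.indicator 1
  let T : (E → Bool) → ℝ := fun w => f (mix {e} w fun _ => true)
  let F : (E → Bool) → ℝ := fun w => f (mix {e} w fun _ => false)
  have hTF : ∀ w, F w ≤ T w := fun w =>
    indicator_monotone hH (mix_mono {e} le_rfl fun _ => Bool.false_le _)
  have key : ∀ q : E → ℝ, Pr q H = Ev q (fun w => F w + q e * (T w - F w)) := by
    intro q
    have h := Pr_inter_tower {e} q (Y := (Set.univ : Set (E → Bool))) (fun _ _ _ => Iff.rfl) H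
    rw [Set.univ_inter] at h
    rw [h]
    congr 1
    funext w
    rw [Set.indicator_univ, Pi.one_apply, one_mul, prOut, Pr, Ev_fixOut,
      ← Ev_coord q e]
    have : ∀ v : E → Bool, f (mix {e} w v)
        = F w + (T w - F w) * (if v e then (1 : ℝ) else 0) := by
      intro v
      have hm : mix {e} w v = mix {e} w fun _ => v e := by
        funext i
        by_cases hi : i = e <;> simp [mix, hi]
      rw [hm]
      cases v e <;> simp [T, F]
    rw [funext this, Ev_add, Ev_const, Ev_const_mul]
    ring
  have hloc : Local ({e}ᶜ : Set E) fun w => F w + q' e * (T w - F w) := by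
    intro w w' h
    have : ∀ u, mix {e} w u = mix {e} w' u := fun u => by
      funext i
      by_cases hi : i = e
      · simp [mix, hi]
      · simpa [mix, hi] using h i hi
    simp only [T, F, this]
  rw [key q, key q', ← Ev_congr_local hloc fun i hi => hoff i hi]
  exact Ev_mono hq fun w =>
    add_le_add le_rfl (mul_le_mul_of_nonneg_right hle (sub_nonneg.2 (hTF w)))

theorem Pr_mono_weights (hq : ∀ e, q e ∈ Set.Icc (0 : ℝ) 1) (hq' : ∀ e, q' e ∈ Set.Icc (0 : ℝ) 1)
    {A : Set E} {H : Set (E → Bool)} (hd : LocalEv A H) (hH : IsUpperSet H)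
    (hle : ∀ e ∈ A, q e ≤ q' e) : Pr q H ≤ Pr q' H := by
  classical
  let m : Finset E → E → ℝ := fun s e => if e ∈ s ∧ e ∈ A then q' e else q e
  have main : ∀ s, Pr q H ≤ Pr (m s) H := by
    intro s
    induction s using Finset.induction with
    | empty => simp [m]
    | @insert a s ha IH =>
      refine IH.trans (Pr_raise_one (fun i => ?_) a (fun i hi => by simp [m, hi]) ?_ hH)
      · simp only [m]; split
        · exact hq' i
        · exact hq i
      · simp only [m, mem_insert_self, true_and]
        rw [if_neg fun h => ha h.1]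
        split
        · exact hle a (by assumption)
        · exact le_rfl
  refine (main univ).trans_eq (Ev_congr_local hd.indicator fun e he => ?_)
  simp [m, he]

theorem markov_bad (hq : ∀ e, q e ∈ Set.Icc (0 : ℝ) 1) (S B : Set E) (hB : B ⊆ S)
    {H : Set (E → Bool)} (hH : IsUpperSet H) {ε δ : ℝ} (hδ : 0 < δ) (h : 1 - ε ≤ Pr q H) :
    Pr q {w | (∀ e ∈ B, w e = true) ∧ Pr (fixOut Sᶜ w q) H < 1 - δ} ≤
      ε / δ * Pr q {w | ∀ e ∈ B, w e = true} := by
  have hO : IsUpperSet {w : E → Bool | ∀ e ∈ B, w e = true} := fun w w' hw h e he => by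
    have := hw e
    rw [h e he] at this
    exact le_antisymm le_top this
  have hOl : LocalEv (Sᶜ : Set E)ᶜ {w : E → Bool | ∀ e ∈ B, w e = true} := fun w w' hw =>
    forall₂_congr fun e he => by rw [hw e (by simpa using hB he)]
  have e1 : {w | (∀ e ∈ B, w e = true) ∧ Pr (fixOut Sᶜ w q) H < 1 - δ}
      = {w : E → Bool | ∀ e ∈ B, w e = true} ∩ badOut Sᶜ q δ Hᶜ := by
    ext w
    simp only [badOut, prOut, Pr_compl, Set.mem_inter_iff]
    exact and_congr_right fun _ => lt_sub_comm
  rw [e1]
  exact Pr_badOut_le hq Sᶜ hO hOl hH.compl hδ (by rw [Pr_compl]; linarith)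

end Weights

end Vale.Agent.P151.Renorm
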